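import Vale.Agent.P256.Lift.Normal

/-!
Counting: normal forms on one index type can tell apart only few sets of points.
-/

namespace Vale.Agent.P256.Lift

open Matrix Finset

variable {ι : Type*} [Fintype ι] [DecidableEq ι] {m : ℕ}

/-- A bounded projection onto a subspace of matrices. -/
theorem exists_proj (V : Submodule ℝ (Matrix ι ι ℝ)) :
    ∃ P : Matrix ι ι ℝ →ₗ[ℝ] Matrix ι ι ℝ, (∀ W, P W ∈ V) ∧ (∀ W ∈ V, P W = W) ∧
      ∀ a b c d, |P (single a b 1) c d| ≤ 1 := by
  let e : Matrix ι ι ℝ ≃ₗ[ℝ] EuclideanSpace ℝ (ι × ι) :=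
    { toFun := fun W => WithLp.toLp 2 fun q => W q.1 q.2
      invFun := fun v => Matrix.of fun a b => v (a, b)
      map_add' := fun W W' => by ext q; simp
      map_smul' := fun r W => by ext q; simp
      left_inv := fun W => by ext a b; simp
      right_inv := fun v => by ext q; simp }
  let V' : Submodule ℝ (EuclideanSpace ℝ (ι × ι)) := V.map e.toLinearMap
  let P : Matrix ι ι ℝ →ₗ[ℝ] Matrix ι ι ℝ :=
    e.symm.toLinearMap ∘ₗ V'.starProjection.toLinearMap ∘ₗ e.toLinearMap
  refine ⟨P, fun W => ?_, fun W hW => ?_, fun a b c d => ?_⟩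
  · obtain ⟨W', hW', he⟩ := Submodule.starProjection_apply_mem V' (e W)
    show e.symm (V'.starProjection (e W)) ∈ V
    rw [← he]
    simpa using hW'
  · have hmem : e W ∈ V' := Submodule.mem_map_of_mem hW
    show e.symm (V'.starProjection (e W)) = W
    rw [Submodule.starProjection_eq_self_iff.mpr hmem, e.symm_apply_apply]
  · have h1 : e (single a b 1) = EuclideanSpace.single (a, b) 1 := by
      ext ⟨c, d⟩
      simp [e, Matrix.single_apply, eq_comm]
    have h2 := (PiLp.norm_apply_le (V'.starProjection (e (single a b 1))) (c, d)).trans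
      (Submodule.norm_starProjection_apply_le V' _)
    rw [h1, PiLp.norm_single, norm_one, Real.norm_eq_abs] at h2
    show |(V'.starProjection (e (single a b 1))) (c, d)| ≤ 1
    rwa [h1]

theorem linear_expand {M : Type*} [AddCommGroup M] [Module ℝ M] (f : Matrix ι ι ℝ →ₗ[ℝ] M)
    (W : Matrix ι ι ℝ) : f W = ∑ a, ∑ b, W a b • f (single a b 1) := by
  conv_lhs => rw [matrix_eq_sum_single W]
  simp only [map_sum]
  refine sum_congr rfl fun a _ => sum_congr rfl fun b _ => ?_
  rw [← map_smul, smul_single, smul_eq_mul, mul_one]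

omit [DecidableEq ι] in
theorem sum_close {W : Matrix ι ι ℝ} {f g : ι → ι → ℝ} {K δ : ℝ} (hK : 0 ≤ K)
    (hW : ∀ a b, |W a b| ≤ K) (h : ∀ a b, |f a b - g a b| ≤ δ) :
    |∑ a, ∑ b, W a b * f a b - ∑ a, ∑ b, W a b * g a b| ≤
      (Fintype.card ι : ℝ) * Fintype.card ι * K * δ := by
  simp only [← sum_sub_distrib, ← mul_sub]
  calc _ ≤ ∑ a, ∑ b, |W a b * (f a b - g a b)| :=
        (abs_sum_le_sum_abs _ _).trans (sum_le_sum fun a _ => abs_sum_le_sum_abs _ _)
    _ ≤ ∑ _a : ι, ∑ _b : ι, K * δ := sum_le_sum fun a _ => sum_le_sum fun b _ => by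
        rw [abs_mul]; exact mul_le_mul (hW a b) (h a b) (abs_nonneg _) hK
    _ = _ := by simp; ring

variable {σ : Type*} [DecidableEq σ]

theorem count [Nonempty ι] (pts : σ → Fin m → ℝ) (hpts : ∀ o i, |pts o i| ≤ 1) (Ω : Finset σ)
    (E : ℕ) (D : Finset σ → Model ι m)
    (htr : ∀ T ∈ Ω.powerset, ∀ W ∈ (D T).space, W.trace = 0)
    (hsym : ∀ T ∈ Ω.powerset, ∀ W ∈ (D T).space, Wᵀ = W)
    (hbd : ∀ T ∈ Ω.powerset, ∀ W ∈ (D T).space, Nn (1 + W) →
      ∀ i, |(D T).centre i + (D T).proj W i| ≤ 3)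
    (hhit : ∀ T ∈ Ω.powerset, ∀ o ∈ T, ∃ W ∈ (D T).space, Nn (1 + W) ∧
      (D T).centre + (D T).proj W = pts o)
    (hfar : ∀ T ∈ Ω.powerset, ∀ o ∈ Ω, o ∉ T → ∀ W ∈ (D T).space, Nn (1 + W) →
      ∃ i, (1 / 2 : ℝ) ^ E / 2 < |(D T).centre i + (D T).proj W i - pts o i|) :
    Ω.card ≤ (Fintype.card ι ^ 4 + Fintype.card ι ^ 2 * m + m) *
      (E + 6 * Fintype.card ι + 13) := by
  classical
  choose P hPmem hPid hPbd using fun T => exists_proj (D T).space
  set k := Fintype.card ι with hk
  have hk1 : (1 : ℝ) ≤ k := by exact_mod_cast Fintype.card_pos (α := ι)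
  have hk0 : (0 : ℝ) < k := by linarith
  set η : ℝ := (1 / 2) ^ E with hη
  have hη0 : 0 < η := by positivity
  have hη1 : η ≤ 1 := pow_le_one₀ (by norm_num) (by norm_num)
  set δ : ℝ := η / (100 * (k : ℝ) ^ 5) with hδ
  have hδ0 : 0 < δ := by positivity
  let val : Finset σ → ((ι × ι) × (ι × ι) ⊕ ((ι × ι) × Fin m ⊕ Fin m)) → ℝ := fun T j =>
    match j with
    | .inl (q, r) => P T (single q.1 q.2 1) r.1 r.2
    | .inr (.inl (q, i)) => (D T).proj (P T (single q.1 q.2 1)) i
    | .inr (.inr i) => (D T).centre i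
  have hval : ∀ T ∈ Ω.powerset, ∀ j, |val T j| ≤ 12 * k := by
    intro T hT j
    have hc : ∀ i, |(D T).centre i| ≤ 3 := fun i => by
      simpa using hbd T hT 0 (Submodule.zero_mem _) (fun z => by
        simp only [add_zero, one_mulVec]
        exact Finset.sum_nonneg fun i _ => mul_self_nonneg (z i)) i
    rcases j with ⟨q, r⟩ | ⟨q, i⟩ | i
    · exact (hPbd T q.1 q.2 r.1 r.2).trans (by linarith)
    · set W := P T (single q.1 q.2 1) with hW
      set s : ℝ := 1 / (k + 1) with hs
      have hs0 : 0 < s := by positivity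
      have hks : (k : ℝ) * s ≤ 1 := by rw [hs, mul_one_div, div_le_one (by positivity)]; linarith
      have hn : Nn (1 + s • W) := by
        have := nn_perturb (M := (1 - (k : ℝ) * s) • (1 : Matrix ι ι ℝ)) (fun z => by
          simp only [smul_mulVec, one_mulVec, dotProduct_smul, smul_eq_mul]
          exact mul_nonneg (by linarith) (Finset.sum_nonneg fun i _ => mul_self_nonneg (z i)))
          (D := s • W) (τ := s) fun a b => by
            rw [Matrix.smul_apply, smul_eq_mul, abs_mul, abs_of_pos hs0]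
            exact mul_le_of_le_one_right hs0.le (hPbd T _ _ _ _)
        convert this using 1
        rw [← hk, add_right_comm, ← add_smul]
        simp
      have h1 := hbd T hT _ (Submodule.smul_mem _ s (hPmem T _)) hn i
      rw [map_smul, Pi.smul_apply, smul_eq_mul] at h1
      have h2 : |s * (D T).proj W i| ≤ 6 := by
        have := abs_le.mp h1; have := abs_le.mp (hc i)
        exact abs_le.mpr ⟨by linarith, by linarith⟩
      rw [abs_mul, abs_of_pos hs0, hs, one_div, ← div_eq_inv_mul, div_le_iff₀ (by positivity)] at h2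
      show |(D T).proj W i| ≤ _
      linarith
    · exact (hc i).trans (by linarith)
  set b := E + 6 * k + 11 with hb
  let G : ℤ := 2 ^ b
  let code : Finset σ → ((ι × ι) × (ι × ι) ⊕ ((ι × ι) × Fin m ⊕ Fin m)) → ℤ :=
    fun T j => ⌊val T j / δ⌋
  have hmaps : Set.MapsTo code (Ω.powerset : Set (Finset σ))
      (↑(Fintype.piFinset fun _ : (ι × ι) × (ι × ι) ⊕ ((ι × ι) × Fin m ⊕ Fin m) => Finset.Icc (-G) G) :
        Set ((ι × ι) × (ι × ι) ⊕ ((ι × ι) × Fin m ⊕ Fin m) → ℤ)) := by
    intro T hT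
    simp only [Finset.mem_coe] at hT ⊢
    refine Fintype.mem_piFinset.mpr fun j => ?_
    have h1 : |val T j / δ| ≤ (G : ℝ) := by
      rw [abs_div, abs_of_pos hδ0, div_le_iff₀ hδ0]
      refine (hval T hT j).trans ?_
      have h2 : (1200 : ℝ) ≤ 2 ^ 11 := by norm_num
      have h3 : (k : ℝ) ^ 6 ≤ 2 ^ (6 * k) := by
        rw [mul_comm 6 k, pow_mul]
        exact pow_le_pow_left₀ hk0.le (by exact_mod_cast (Nat.lt_two_pow_self).le) 6
      have h4 : (2 : ℝ) ^ E * η = 1 := by rw [hη, ← mul_pow]; norm_num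
      simp only [G, hb, hδ]
      push_cast
      rw [← mul_div_assoc, le_div_iff₀ (by positivity), pow_add, pow_add]
      calc 12 * (k : ℝ) * (100 * (k : ℝ) ^ 5) = 1200 * (k : ℝ) ^ 6 * 1 := by ring
        _ ≤ 2 ^ 11 * 2 ^ (6 * k) * ((2 : ℝ) ^ E * η) := by
            rw [h4]; gcongr
        _ = _ := by ring
    have h5 := abs_le.mp h1
    refine Finset.mem_Icc.mpr ⟨Int.le_floor.mpr (by push_cast; linarith), ?_⟩
    exact Int.floor_le_iff.mpr (by linarith)
  have hinj : Set.InjOn code Ω.powerset := by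
    intro T hT T' hT' heq
    by_contra hne
    simp only [Finset.mem_coe] at hT hT'
    wlog hex : ∃ o ∈ T, o ∉ T' generalizing T T'
    · exact this heq.symm (Ne.symm hne) hT' hT (by
        by_contra h2
        push Not at hex h2
        exact hne (Finset.Subset.antisymm hex h2))
    obtain ⟨o, ho, ho'⟩ := hex
    have hclose : ∀ j, |val T' j - val T j| ≤ δ := fun j => by
      have h := Int.abs_sub_lt_one_of_floor_eq_floor (congrFun heq j).symm
      rw [← sub_div, abs_div, abs_of_pos hδ0, div_lt_one hδ0] at h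
      exact h.le
    obtain ⟨W, hW, hn, hpt⟩ := hhit T hT o ho
    have hWb : ∀ a b, |W a b| ≤ 2 * k := fun a b => by
      have hs : (1 + W)ᵀ = 1 + W := by simp [hsym T hT W hW]
      have h1 := hn.abs_entry hs a b
      rw [trace_add, trace_one, htr T hT W hW, add_zero, ← hk, Matrix.add_apply] at h1
      have h2 : |(1 : Matrix ι ι ℝ) a b| ≤ 1 := by rw [Matrix.one_apply]; split_ifs <;> simp
      have := abs_le.mp h1; have := abs_le.mp h2
      exact abs_le.mpr ⟨by linarith, by linarith⟩
    set τ : ℝ := (k : ℝ) * k * (2 * k) * δ with hτ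
    have hτ0 : 0 ≤ τ := by positivity
    set W' := P T' W with hW'
    have hWW : ∀ c d, |(W' - W) c d| ≤ τ := fun c d => by
      rw [hW', Matrix.sub_apply]
      nth_rw 2 [← hPid T W hW]
      rw [linear_expand (P T') W, linear_expand (P T) W]
      simp only [Matrix.sum_apply, Matrix.smul_apply, smul_eq_mul]
      exact sum_close (by positivity) hWb fun a b => hclose (.inl ((a, b), (c, d)))
    have hLL : ∀ i, |(D T').proj W' i - (D T).proj W i| ≤ τ := fun i => by
      rw [hW']
      nth_rw 2 [← hPid T W hW]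
      rw [linear_expand ((D T').proj ∘ₗ P T') W |> (fun h => show (D T').proj (P T' W) = _ from h),
        linear_expand ((D T).proj ∘ₗ P T) W |> (fun h => show (D T).proj (P T W) = _ from h)]
      simp only [Finset.sum_apply, Pi.smul_apply, smul_eq_mul, LinearMap.comp_apply]
      exact sum_close (by positivity) hWb fun a b => hclose (.inr (.inl ((a, b), i)))
    set s : ℝ := 1 / (1 + k * τ) with hs
    have hs0 : 0 < s := by positivity
    have hkτ : 0 ≤ (k : ℝ) * τ := by positivity
    have hs1 : s ≤ 1 := by rw [hs, div_le_one (by positivity)]; linarith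
    have hs2 : 1 - s ≤ k * τ := by
      have : s * (1 + k * τ) = 1 := by rw [hs, one_div, inv_mul_cancel₀ (by positivity)]
      nlinarith [mul_le_mul_of_nonneg_right hs1 hkτ]
    have hn' : Nn (1 + s • W') := fun z => by
      have h0 := nn_perturb hn hWW z
      have : s * (1 + k * τ) = 1 := by rw [hs, one_div, inv_mul_cancel₀ (by positivity)]
      simp only [add_mulVec, sub_mulVec, dotProduct_add, dotProduct_sub, smul_mulVec, one_mulVec,
        dotProduct_smul, smul_eq_mul, ← hk] at h0 ⊢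
      nlinarith [mul_nonneg hs0.le h0,
        show s * (1 + k * τ) * (z ⬝ᵥ z) = z ⬝ᵥ z by rw [this, one_mul]]
    obtain ⟨i, hi⟩ := hfar T' hT' o ((Finset.mem_powerset.mp hT) ho) ho' _
      (Submodule.smul_mem _ s (hPmem T' W)) hn'
    rw [map_smul, Pi.smul_apply, smul_eq_mul] at hi
    have hc := hclose (.inr (.inr i))
    simp only [val] at hc
    have hLW : |(D T).proj W i| ≤ 4 := by
      have h1 := congrFun hpt i
      simp only [Pi.add_apply] at h1
      have h2 := abs_le.mp (show |(D T).centre i| ≤ 3 by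
        simpa using hbd T hT 0 (Submodule.zero_mem _) (fun z => by
          simp only [add_zero, one_mulVec]
          exact Finset.sum_nonneg fun i _ => mul_self_nonneg (z i)) i)
      have := abs_le.mp (hpts o i)
      exact abs_le.mpr ⟨by linarith, by linarith⟩
    have h3 : |s * (D T').proj W' i - (D T).proj W i| ≤ τ + 4 * (k * τ) := by
      rw [show s * (D T').proj W' i - (D T).proj W i =
        s * ((D T').proj W' i - (D T).proj W i) + (s - 1) * (D T).proj W i by ring]
      refine (abs_add_le _ _).trans (add_le_add ?_ ?_)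
      · rw [abs_mul, abs_of_pos hs0]
        exact (mul_le_of_le_one_left (abs_nonneg _) hs1).trans (hLL i)
      · rw [abs_mul, mul_comm 4]
        exact mul_le_mul (abs_le.mpr ⟨by linarith, by linarith⟩) hLW (abs_nonneg _) hkτ
    have h4 : |(D T').centre i + s * (D T').proj W' i - pts o i| ≤ δ + (τ + 4 * (k * τ)) := by
      rw [← congrFun hpt i, Pi.add_apply]
      have := abs_le.mp hc; have := abs_le.mp h3
      exact abs_le.mpr ⟨by linarith, by linarith⟩
    have h5 : δ + (τ + 4 * (k * τ)) ≤ η / 2 := by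
      have e : δ * (100 * (k : ℝ) ^ 5) = η := by rw [hδ, div_mul_cancel₀ _ (by positivity)]
      have a1 : (k : ℝ) ^ 3 ≤ k ^ 5 := pow_le_pow_right₀ hk1 (by norm_num)
      have a2 : (k : ℝ) ^ 4 ≤ k ^ 5 := pow_le_pow_right₀ hk1 (by norm_num)
      have a3 : (1 : ℝ) ≤ (k : ℝ) ^ 5 := one_le_pow₀ hk1
      rw [hτ, ← e]
      nlinarith [mul_le_mul_of_nonneg_left a1 hδ0.le, mul_le_mul_of_nonneg_left a2 hδ0.le,
        mul_le_mul_of_nonneg_left a3 hδ0.le]
    linarith
  have hcard := Finset.card_le_card_of_injOn code hmaps hinj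
  rw [Finset.card_powerset, Fintype.card_piFinset, Finset.prod_const, Int.card_Icc] at hcard
  have hG : (G + 1 - -G).toNat ≤ 2 ^ (b + 2) := by
    rw [Int.toNat_le]
    have h1 : (2 : ℤ) ^ (b + 2) = 4 * 2 ^ b := by ring
    have h2 := one_le_pow₀ (M₀ := ℤ) (a := 2) one_le_two (n := b)
    push_cast
    rw [h1]
    show 2 ^ b + 1 - -2 ^ b ≤ _
    linarith
  have hle := hcard.trans (Nat.pow_le_pow_left hG _)
  rw [← pow_mul, Nat.pow_le_pow_iff_right (by norm_num : 1 < 2)] at hle
  refine hle.trans_eq ?_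
  simp only [Finset.card_univ, Fintype.card_sum, Fintype.card_prod, Fintype.card_fin, ← hk, hb]
  ring

end Vale.Agent.P256.Lift
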