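import Vale.Agent.P256.Lift.Margin
import Vale.Agent.P256.Lift.Count

/-!
Every semidefinite lift of some member of the family is large.
-/

namespace Vale.Agent.P256.Lift

open Matrix Finset

variable {m N N' : ℕ}

/-- Pads a matrix with zeros. -/
def pad (h : N' ≤ N) : Matrix (Fin N') (Fin N') ℝ →ₗ[ℝ] Matrix (Fin N) (Fin N) ℝ where
  toFun X := (fromBlocks X 0 0 (0 : Matrix (Fin (N - N')) (Fin (N - N')) ℝ)).submatrix
    (finSumFinEquiv.trans (finCongr (Nat.add_sub_cancel' h))).symm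
    (finSumFinEquiv.trans (finCongr (Nat.add_sub_cancel' h))).symm
  map_add' X Y := by
    ext i j
    simp only [Matrix.add_apply, submatrix_apply]
    generalize (finSumFinEquiv.trans (finCongr (Nat.add_sub_cancel' h))).symm i = i'
    generalize (finSumFinEquiv.trans (finCongr (Nat.add_sub_cancel' h))).symm j = j'
    rcases i' with i' | i' <;> rcases j' with j' | j' <;> simp
  map_smul' r X := by
    ext i j
    simp only [RingHom.id_apply, Matrix.smul_apply, submatrix_apply]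
    generalize (finSumFinEquiv.trans (finCongr (Nat.add_sub_cancel' h))).symm i = i'
    generalize (finSumFinEquiv.trans (finCongr (Nat.add_sub_cancel' h))).symm j = j'
    rcases i' with i' | i' <;> rcases j' with j' | j' <;> simp

theorem pad_transpose (h : N' ≤ N) {X : Matrix (Fin N') (Fin N') ℝ} (hX : Xᵀ = X) :
    (pad h X)ᵀ = pad h X := by
  simp [pad, transpose_submatrix, fromBlocks_transpose, hX]

theorem nn_pad (h : N' ≤ N) {X : Matrix (Fin N') (Fin N') ℝ} (hX : Xᵀ = X) :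
    Nn (pad h X) ↔ X.PosSemidef := by
  constructor
  · intro hn
    refine psd_of_nn hX fun z => ?_
    have hp := (psd_of_nn (pad_transpose h hX) hn).submatrix
      (finSumFinEquiv.trans (finCongr (Nat.add_sub_cancel' h)))
    have := nn_of_psd hp (Sum.elim z 0)
    simpa [pad, fromBlocks_mulVec, dotProduct, Fintype.sum_sum_type, mulVec] using this
  · intro hp
    refine nn_of_psd ?_
    show (Matrix.submatrix _ _ _).PosSemidef
    exact ((psd_of_nn (by simp [fromBlocks_transpose, hX])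
      (nn_fromBlocks (nn_of_psd hp) fun z => by simp)).submatrix _)

theorem slice_pencil {a : ℕ} (h : N' ≤ N) (A₀ : Matrix (Fin N') (Fin N') ℝ)
    (A : Fin (m + 1) → Matrix (Fin N') (Fin N') ℝ) (B : Fin a → Matrix (Fin N') (Fin N') ℝ)
    (r : ℝ) (y : Fin m → ℝ) (u : Fin a → ℝ) :
    pencil (pad h (A₀ + r • A 0)) (fun i => pad h (A i.succ)) (fun j => pad h (B j)) y u =
      pad h (A₀ + ∑ i, (Fin.cons r y : Fin (m + 1) → ℝ) i • A i + ∑ j, u j • B j) := by
  simp [pencil, map_sum, map_smul, Fin.sum_univ_succ]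
  abel

theorem lower_bound (l m N : ℕ) (hl : 1 ≤ l) (hlm : 2 * l ≤ m)
    (hN : ((N + 2 * m + 1) ^ 4 + (N + 2 * m + 1) ^ 2 * m + m) *
      (10 * (l + m + 1) ^ 2 + 6 * (N + 2 * m + 1) + 13) < m.choose (2 * l)) :
    ∃ (p : MvPolynomial (Fin (m + 1)) ℝ) (e : Fin (m + 1) → ℝ), p.IsHomogeneous (2 * l) ∧
      Hyperbolic p e ∧ (∀ y, y ≠ 0 → MvPolynomial.eval y p = 0 →
        ∃ i, MvPolynomial.eval y (MvPolynomial.pderiv i p) ≠ 0) ∧ ∀ (k a : ℕ) (A₀ : Matrix (Fin k) (Fin k) ℝ)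
        (A : Fin (m + 1) → Matrix (Fin k) (Fin k) ℝ) (B : Fin a → Matrix (Fin k) (Fin k) ℝ),
        A₀.IsSymm → (∀ i, (A i).IsSymm) → (∀ j, (B j).IsSymm) →
        hypCone p e = {x | ∃ u : Fin a → ℝ, (A₀ + ∑ i, x i • A i + ∑ j, u j • B j).PosSemidef} →
        N < k := by
  classical
  by_contra hcon
  push Not at hcon
  have hmodel : ∀ T ∈ (sets m (2 * l)).powerset, ∃ D : Model (Idx N m) m,
      (∀ W ∈ D.space, Wᵀ = W) ∧ (∀ W ∈ D.space, W.trace = 0) ∧
      (∀ W ∈ D.space, Nn (1 + W) → ∀ i, |D.centre i + D.proj W i| ≤ 3) ∧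
      (∀ o ∈ T, ∃ W ∈ D.space, Nn (1 + W) ∧ D.centre + D.proj W = ind o) ∧
      (∀ o ∈ sets m (2 * l) \ T, ∀ W ∈ D.space, Nn (1 + W) →
        ∃ i, eta l m / 2 < |D.centre i + D.proj W i - ind o i|) := by
    intro T hT
    obtain ⟨k, a, A₀, A, B, h0, hA, hB, hset, hk⟩ :=
      hcon (pol l T) (dirE m) pol_hom (hyperbolic hl) (smooth hl)
    have hsym : ∀ (x : Fin (m + 1) → ℝ) (u : Fin a → ℝ),
        (A₀ + ∑ i, x i • A i + ∑ j, u j • B j)ᵀ = A₀ + ∑ i, x i • A i + ∑ j, u j • B j := fun x u => by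
      simp [transpose_sum, show A₀ᵀ = A₀ from h0, show ∀ i, (A i)ᵀ = A i from hA,
        show ∀ j, (B j)ᵀ = B j from hB]
    have hiff : ∀ y : Fin m → ℝ, lift0 l y ∈ hypCone (pol l T) (dirE m) ↔
        ∃ u, Nn (pencil (pad hk (A₀ + rho l • A 0)) (fun i => pad hk (A i.succ))
          (fun j => pad hk (B j)) y u) := fun y => by
      rw [hset, Set.mem_ofPred_eq]
      refine exists_congr fun u => ?_
      rw [slice_pencil, nn_pad hk (hsym _ u)]
      rfl
    refine normal_form (pad_transpose hk ?_) (fun i => pad_transpose hk (hA _))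
      (fun j => pad_transpose hk (hB j)) ind (fun o i => ?_) T (sets m (2 * l) \ T) eta_pos
      ((hiff 0).mp (zero_slice hl))
      (fun o ho => (hiff _).mp (mem_slice (mem_powerset.mp hT ho) ho)) fun o ho y u hy hn => ?_
    · simp [show A₀ᵀ = A₀ from h0, show (A 0)ᵀ = A 0 from hA 0]
    · unfold ind; split_ifs <;> norm_num
    · rw [Finset.mem_sdiff] at ho
      exact out_slice hl (by omega) ho.1 ho.2 hy ((hiff y).mpr ⟨u, hn⟩)
  have hM : Nonempty (Model (Idx N m) m) := ⟨⟨⊥, 0, 0⟩⟩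
  choose! D hsym htr hbd hhit hfar using hmodel
  have : Nonempty (Idx N m) := ⟨Sum.inl (Sum.inr ())⟩
  have hcount := count (ι := Idx N m) ind
    (fun o i => by unfold ind; split_ifs <;> norm_num) (sets m (2 * l)) (mexp l m) D htr hsym hbd
    hhit fun T hT o ho hoT => hfar T hT o (Finset.mem_sdiff.mpr ⟨ho, hoT⟩)
  rw [card_sets, show Fintype.card (Idx N m) = N + 2 * m + 1 by simp; omega, mexp] at hcount
  omega

theorem exponential (l : ℕ) (hl : 40 ≤ l) :
    ((2 ^ (l / 4) + 2 * (4 * l) + 1) ^ 4 + (2 ^ (l / 4) + 2 * (4 * l) + 1) ^ 2 * (4 * l) + 4 * l) *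
      (10 * (l + 4 * l + 1) ^ 2 + 6 * (2 ^ (l / 4) + 2 * (4 * l) + 1) + 13) <
      (4 * l).choose (2 * l) := by
  have key : ∀ q, 10 ≤ q → 48 * (q + 1) ≤ 2 ^ q := fun q hq => by
    induction q, hq using Nat.le_induction with
    | base => norm_num
    | succ q _ ih => rw [pow_succ]; omega
  have hq := key (l / 4) (by omega)
  set K := 2 ^ (l / 4) + 2 * (4 * l) + 1 with hK
  have hKle : K ≤ 2 ^ (l / 4 + 1) := by rw [hK, pow_succ]; omega
  have hK1 : 1 ≤ K := by omega
  have hm : 4 * l ≤ K := by omega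
  have h2 : K ^ 2 * (4 * l) ≤ K ^ 4 :=
    (Nat.mul_le_mul_left _ hm).trans (by
      calc K ^ 2 * K = K ^ 3 := by ring
        _ ≤ K ^ 4 := Nat.pow_le_pow_right hK1 (by norm_num))
  have h3 : 4 * l ≤ K ^ 4 := hm.trans (Nat.le_self_pow (by norm_num) K)
  have h4 : 10 * (l + 4 * l + 1) ^ 2 + 6 * K + 13 ≤ 29 * K ^ 2 := by
    have a := Nat.pow_le_pow_left (show l + 4 * l + 1 ≤ K by omega) 2
    have b : K ≤ K ^ 2 := Nat.le_self_pow (by norm_num) K
    omega
  have hLHS : (K ^ 4 + K ^ 2 * (4 * l) + 4 * l) * (10 * (l + 4 * l + 1) ^ 2 + 6 * K + 13) ≤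
      2 ^ (6 * (l / 4) + 13) := by
    calc _ ≤ (3 * K ^ 4) * (29 * K ^ 2) := Nat.mul_le_mul (by omega) h4
      _ = 87 * K ^ 6 := by ring
      _ ≤ 2 ^ 7 * (2 ^ (l / 4 + 1)) ^ 6 := Nat.mul_le_mul (by norm_num) (Nat.pow_le_pow_left hKle 6)
      _ = _ := by rw [← pow_mul, ← pow_add]; congr 1; ring
  have hbin : ∀ n : ℕ, 2 ^ n ≤ (2 * n).choose n := fun n => by
    induction n with
    | zero => simp
    | succ n ih =>
      have h := Nat.succ_mul_centralBinom_succ n
      simp only [Nat.centralBinom_eq_two_mul_choose] at h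
      have h1 : (n + 1) * (2 * (2 * n).choose n) ≤ (n + 1) * (2 * (n + 1)).choose (n + 1) := by
        rw [h]; calc (n + 1) * (2 * (2 * n).choose n) = (2 * (n + 1)) * (2 * n).choose n := by ring
          _ ≤ 2 * (2 * n + 1) * (2 * n).choose n := Nat.mul_le_mul_right _ (by omega)
      have := Nat.le_of_mul_le_mul_left h1 (Nat.succ_pos n)
      rw [pow_succ]; omega
  have := hbin (2 * l)
  rw [show 2 * (2 * l) = 4 * l by ring] at this
  exact hLHS.trans_lt ((Nat.pow_lt_pow_right one_lt_two (by omega)).trans_le this)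

end Vale.Agent.P256.Lift
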