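import Vale.Agent.P256.Lift.Poly

/-!
The points which tell the cones apart, and the margin with which they do so.
-/

namespace Vale.Agent.P256.Lift

open MvPolynomial Finset

variable {m l : ℕ} {T : Finset (Finset (Fin m))}

/-- The indicator vector of a set. -/
def ind (S : Finset (Fin m)) : Fin m → ℝ := fun i => if i ∈ S then 1 else 0

/-- The height of the slice. -/
noncomputable def rho (l : ℕ) : ℝ := Real.sqrt (2 * l * l)

/-- The point of the slice over `y`. -/
noncomputable def lift0 (l : ℕ) (y : Fin m → ℝ) : Fin (m + 1) → ℝ := Fin.cons (rho l) y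

/-- The exponent of the margin. -/
def mexp (l m : ℕ) : ℕ := 10 * (l + m + 1) ^ 2

/-- The margin. -/
noncomputable def eta (l m : ℕ) : ℝ := (1 / 2) ^ mexp l m

theorem eta_pos : 0 < eta l m := by unfold eta; positivity

theorem rho_sq : rho l ^ 2 = 2 * l * l := Real.sq_sqrt (by positivity)

theorem eval_lift0 (y : Fin m → ℝ) (t : ℝ) :
    eval (t • dirE m - lift0 l y) (pol l T) = gval l T (t - rho l) y := by
  rw [eval_line]; simp [lift0]

theorem rsq_ind {S : Finset (Fin m)} (hS : S ∈ sets m (2 * l)) : rsq (ind S) = 2 * l := by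
  have hc : S.card = 2 * l := (mem_powersetCard.mp hS).2
  simp [rsq, ind, sum_ite_mem, hc]

theorem pert_ind {S : Finset (Fin m)} (hS : S ∈ sets m (2 * l)) : pert l T (ind S) = sgn T S := by
  rw [pert, sum_eq_single_of_mem S hS fun S' hS' hne => ?_]
  · rw [prod_eq_one fun i hi => by simp [ind, hi], mul_one]
  · have h1 : S'.card = 2 * l := (mem_powersetCard.mp hS').2
    have h2 : S.card = 2 * l := (mem_powersetCard.mp hS).2
    obtain ⟨i, hi, hiS⟩ := not_subset.mp fun h => hne (eq_of_subset_of_card_le h (by omega))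
    rw [prod_eq_zero hi (by simp [ind, hiS]), mul_zero]

theorem mem_slice {S : Finset (Fin m)} (hS : S ∈ sets m (2 * l)) (hT : S ∈ T) :
    lift0 l (ind S) ∈ hypCone (pol l T) (dirE m) := by
  intro t ht
  rw [eval_lift0] at ht
  by_contra hneg
  have hsq : 2 * (l : ℝ) * l ≤ (t - rho l) ^ 2 := by
    rw [← rho_sq (l := l)]
    have : 0 ≤ rho l := Real.sqrt_nonneg _
    nlinarith
  have hbase : 0 ≤ base l (t - rho l) (rsq (ind S)) := prod_nonneg fun j hj => by
    rw [rsq_ind hS]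
    have : (j : ℝ) + 1 ≤ l := by exact_mod_cast mem_range.mp hj
    nlinarith [(Nat.cast_nonneg l : (0 : ℝ) ≤ l)]
  rw [gval, pert_ind hS, sgn, if_pos hT, mul_one] at ht
  linarith [eps_pos (l := l) (m := m)]

theorem zero_slice (hl : 1 ≤ l) : lift0 l (0 : Fin m → ℝ) ∈ hypCone (pol l T) (dirE m) := by
  intro t ht
  rw [eval_lift0] at ht
  simp [gval, pert_zero hl, base, rsq] at ht
  have := Real.sqrt_nonneg (2 * (l : ℝ) * l)
  rw [rho] at ht
  linarith [ht.1]

theorem gval_nonneg_of_mem {y : Fin m → ℝ}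
    (hy : lift0 l y ∈ hypCone (pol l T) (dirE m)) : 0 ≤ gval l T (rho l) y := by
  by_contra hneg
  push Not at hneg
  set W := Real.sqrt ((l + 1) * rsq y + 1) with hW
  have hW0 : 0 ≤ W := Real.sqrt_nonneg _
  have hWsq : W ^ 2 = (l + 1) * rsq y + 1 :=
    Real.sq_sqrt (by have := rsq_nonneg y; positivity)
  set z := W + |rho l| + 1 with hz
  have hzW : W ^ 2 ≤ z ^ 2 := pow_le_pow_left₀ hW0 (by linarith [abs_nonneg (rho l)]) 2
  have hbig : 0 < gval l T z y := by
    have h1 : (rsq y + 1) ^ l ≤ base l z (rsq y) := by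
      rw [← card_range l, ← prod_const, card_range, base]
      refine prod_le_prod (fun j _ => by have := rsq_nonneg y; linarith) fun j hj => ?_
      have hj' : (j : ℝ) + 1 ≤ l := by exact_mod_cast mem_range.mp hj
      nlinarith [rsq_nonneg y]
    have h2 := small_pert (l := l) (T := T) y
    have h3 : rsq y ^ l ≤ (rsq y + 1) ^ l := pow_le_pow_left₀ (rsq_nonneg y) (by linarith) l
    have h4 : (1 / 2 : ℝ) ^ l ≤ 1 := pow_le_one₀ (by norm_num) (by norm_num)
    have h5 : 0 < (rsq y + 1) ^ l := pow_pos (by linarith [rsq_nonneg y]) l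
    unfold gval
    nlinarith [(abs_le.mp h2).1, pow_nonneg (rsq_nonneg y) l]
  have hc : Continuous fun t : ℝ => gval l T (t - rho l) y := by unfold gval base; fun_prop
  have ht0 : rho l - z < 0 := by linarith [le_abs_self (rho l)]
  obtain ⟨t, ht, hroot⟩ := intermediate_value_Ioo' ht0.le hc.continuousOn
    (⟨by simpa [gval_neg] using hneg, by simpa [gval_neg] using hbig⟩ :
      (0 : ℝ) ∈ Set.Ioo _ _)
  have := hy t (by rw [eval_lift0]; exact hroot)
  linarith [ht.2]

theorem prod_diff {ι : Type*} (s : Finset ι) (a b : ι → ℝ) {F d : ℝ} (hF : 1 ≤ F) (hd : 0 ≤ d)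
    (ha : ∀ i ∈ s, |a i| ≤ F) (hb : ∀ i ∈ s, |b i| ≤ F) (hab : ∀ i ∈ s, |a i - b i| ≤ d) :
    |∏ i ∈ s, a i - ∏ i ∈ s, b i| ≤ s.card * F ^ s.card * d := by
  classical
  induction s using Finset.induction_on with
  | empty => simp
  | insert i s hi ih =>
    have hi' := mem_insert_self i s
    have ih' := ih (fun j hj => ha j (mem_insert_of_mem hj)) (fun j hj => hb j (mem_insert_of_mem hj))
      fun j hj => hab j (mem_insert_of_mem hj)
    have hprod : |∏ j ∈ s, b j| ≤ F ^ s.card := by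
      rw [abs_prod, ← prod_const]
      exact prod_le_prod (fun j _ => abs_nonneg _) fun j hj => hb j (mem_insert_of_mem hj)
    rw [prod_insert hi, prod_insert hi, card_insert_of_notMem hi,
      show a i * ∏ j ∈ s, a j - b i * ∏ j ∈ s, b j =
        a i * (∏ j ∈ s, a j - ∏ j ∈ s, b j) + (a i - b i) * ∏ j ∈ s, b j by ring]
    refine (abs_add_le _ _).trans ?_
    rw [abs_mul, abs_mul]
    have h1 := mul_le_mul (ha i hi') ih' (abs_nonneg _) (by linarith)
    have h2 := mul_le_mul (hab i hi') hprod (abs_nonneg _) hd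
    have h3 : 0 ≤ d * F ^ s.card * (F - 1) :=
      mul_nonneg (mul_nonneg hd (pow_nonneg (by linarith) _)) (by linarith)
    rw [pow_succ]; push_cast
    nlinarith

theorem le_two_pow (a : ℕ) : (a : ℝ) ≤ 2 ^ a := by exact_mod_cast (Nat.lt_two_pow_self).le

theorem out_slice (hl : 1 ≤ l) (hm : 1 ≤ m) {S : Finset (Fin m)} (hS : S ∈ sets m (2 * l))
    (hT : S ∉ T) {y : Fin m → ℝ} (hy : ∀ i, |y i - ind S i| ≤ eta l m) :
    lift0 l y ∉ hypCone (pol l T) (dirE m) := by
  intro hmem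
  have h0 := gval_nonneg_of_mem hmem
  set a := ind S with ha
  set Z := l + m + 1 with hZ
  have hη : eta l m ≤ 1 := pow_le_one₀ (by norm_num) (by norm_num)
  have hη0 := (eta_pos (l := l) (m := m)).le
  have hai : ∀ i, 0 ≤ a i ∧ a i ≤ 1 := fun i => by simp only [ha, ind]; split_ifs <;> norm_num
  have hyi : ∀ i, |y i| ≤ 2 := fun i => by
    have := abs_le.mp (hy i); obtain ⟨_, _⟩ := hai i
    exact abs_le.mpr ⟨by linarith, by linarith⟩
  have hzero : base l (rho l) (rsq a) = 0 := by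
    refine prod_eq_zero (mem_range.mpr (show l - 1 < l by omega)) ?_
    rw [rho_sq, rsq_ind hS, Nat.cast_sub hl]; push_cast; ring
  have hga : gval l T (rho l) a = -eps l m := by
    rw [gval, hzero, pert_ind hS, sgn, if_neg hT]; ring
  have hl2 : (l : ℝ) ≤ 2 ^ Z := (le_two_pow l).trans (pow_le_pow_right₀ one_le_two (by omega))
  have hm2 : (m : ℝ) ≤ 2 ^ Z := (le_two_pow m).trans (pow_le_pow_right₀ one_le_two (by omega))
  have h4Z : (8 : ℝ) * (2 ^ Z * 2 ^ Z) ≤ 2 ^ (4 * Z) := by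
    rw [show (8 : ℝ) = 2 ^ 3 by norm_num, ← pow_add, ← pow_add]
    exact pow_le_pow_right₀ one_le_two (by omega)
  have hry : rsq y ≤ 4 * m := by
    calc rsq y ≤ ∑ _i : Fin m, (4 : ℝ) := sum_le_sum fun i _ => by
          nlinarith [abs_le.mp (hyi i)]
      _ = 4 * m := by simp; ring
  have hra : rsq a ≤ 4 * m := by
    calc rsq a ≤ ∑ _i : Fin m, (4 : ℝ) := sum_le_sum fun i _ => by
          obtain ⟨_, _⟩ := hai i; nlinarith
      _ = 4 * m := by simp; ring
  have hfac : ∀ r : ℝ, 0 ≤ r → r ≤ 4 * m → ∀ j ∈ range l,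
      |rho l ^ 2 - (j + 1 : ℝ) * r| ≤ 2 ^ (4 * Z) := by
    intro r hr0 hr j hj
    have hj' : (j : ℝ) + 1 ≤ l := by exact_mod_cast mem_range.mp hj
    have h1 : (l : ℝ) * l ≤ 2 ^ Z * 2 ^ Z := mul_le_mul hl2 hl2 (by positivity) (by positivity)
    have h2 : (j + 1 : ℝ) * r ≤ 4 * (2 ^ Z * 2 ^ Z) := by
      calc (j + 1 : ℝ) * r ≤ l * (4 * m) := mul_le_mul hj' hr hr0 (by positivity)
        _ ≤ _ := by nlinarith [mul_le_mul hl2 hm2 (by positivity) (by positivity : (0:ℝ) ≤ 2 ^ Z)]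
    rw [rho_sq]
    have : 0 ≤ (j + 1 : ℝ) * r := by positivity
    exact abs_le.mpr ⟨by nlinarith, by nlinarith⟩
  have hdr : |rsq y - rsq a| ≤ 3 * m * eta l m := by
    rw [rsq, rsq, ← sum_sub_distrib]
    calc _ ≤ ∑ i : Fin m, |y i ^ 2 - a i ^ 2| := abs_sum_le_sum_abs _ _
      _ ≤ ∑ _i : Fin m, 3 * eta l m := sum_le_sum fun i _ => by
          rw [sq_sub_sq, abs_mul]
          have : |y i + a i| ≤ 3 := by
            obtain ⟨_, _⟩ := hai i
            have := abs_le.mp (hyi i)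
            exact abs_le.mpr ⟨by linarith, by linarith⟩
          exact mul_le_mul this (hy i) (abs_nonneg _) (by norm_num)
      _ = _ := by simp; ring
  have hd : ∀ j ∈ range l, |(rho l ^ 2 - (j + 1 : ℝ) * rsq y) - (rho l ^ 2 - (j + 1 : ℝ) * rsq a)| ≤
      2 ^ (4 * Z) * eta l m := by
    intro j hj
    have hj' : (j : ℝ) + 1 ≤ l := by exact_mod_cast mem_range.mp hj
    rw [show (rho l ^ 2 - (j + 1 : ℝ) * rsq y) - (rho l ^ 2 - (j + 1 : ℝ) * rsq a) =
      (j + 1 : ℝ) * (rsq a - rsq y) by ring, abs_mul, abs_of_pos (by positivity : (0:ℝ) < j + 1),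
      abs_sub_comm]
    calc (j + 1 : ℝ) * |rsq y - rsq a| ≤ l * (3 * m * eta l m) :=
          mul_le_mul hj' hdr (abs_nonneg _) (by positivity)
      _ ≤ _ := by
        have := mul_le_mul_of_nonneg_right
          (mul_le_mul hl2 hm2 (by positivity) (by positivity : (0:ℝ) ≤ 2 ^ Z)) hη0
        nlinarith
  have hF : (1 : ℝ) ≤ 2 ^ (4 * Z) := one_le_pow₀ one_le_two
  have hbd := prod_diff (range l) _ _ hF (by positivity) (hfac _ (rsq_nonneg y) hry)
    (hfac _ (rsq_nonneg a) hra) hd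
  rw [card_range] at hbd
  have hpert : |pert l T y - pert l T a| ≤
      (sets m (2 * l)).card * ((2 * l : ℕ) * 2 ^ (2 * l) * eta l m) := by
    rw [pert, pert, ← sum_sub_distrib]
    refine (abs_sum_le_sum_abs _ _).trans ((sum_le_sum fun R hR => ?_).trans_eq
      (by rw [sum_const, nsmul_eq_mul]))
    have hc : R.card = 2 * l := (mem_powersetCard.mp hR).2
    rw [← mul_sub, abs_mul, abs_sgn, one_mul]
    have := prod_diff R y a one_le_two hη0 (fun i _ => hyi i)
      (fun i _ => by obtain ⟨_, _⟩ := hai i; exact abs_le.mpr ⟨by linarith, by linarith⟩)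
      fun i _ => hy i
    rwa [hc] at this
  have he1 : eps l m * (sets m (2 * l)).card ≤ 1 := by
    calc eps l m * (sets m (2 * l)).card ≤ (1 / 2 : ℝ) ^ (l + m + 2) * 2 ^ (l + m + 2) :=
          mul_le_mul_of_nonneg_left ((card_le m _).trans (pow_le_pow_right₀ one_le_two (by omega)))
            eps_pos.le
      _ = 1 := by rw [← mul_pow]; norm_num
  have hb1 : base l (rho l) (rsq y) ≤ (2 : ℝ) ^ (4 * Z ^ 2 + 5 * Z) * eta l m := by
    have h := (abs_le.mp hbd).2
    change base l (rho l) (rsq y) - base l (rho l) (rsq a) ≤ _ at h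
    rw [hzero, sub_zero] at h
    refine h.trans ?_
    rw [← pow_mul, ← mul_assoc]
    refine mul_le_mul_of_nonneg_right ?_ hη0
    calc (l : ℝ) * 2 ^ (4 * Z * l) * 2 ^ (4 * Z) ≤ 2 ^ Z * 2 ^ (4 * Z * Z) * 2 ^ (4 * Z) := by
          gcongr
          · exact one_le_two
          · omega
      _ = _ := by rw [← pow_add, ← pow_add]; congr 1; ring
  have hp1 : eps l m * (pert l T y - pert l T a) ≤ (2 : ℝ) ^ (4 * Z ^ 2 + 5 * Z) * eta l m := by
    calc eps l m * (pert l T y - pert l T a) ≤ eps l m *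
          ((sets m (2 * l)).card * ((2 * l : ℕ) * 2 ^ (2 * l) * eta l m)) :=
        mul_le_mul_of_nonneg_left ((le_abs_self _).trans hpert) eps_pos.le
      _ ≤ 1 * ((2 : ℝ) ^ (Z + 1) * 2 ^ (2 * Z) * eta l m) := by
        rw [← mul_assoc]
        gcongr
        · push_cast; rw [pow_succ]; linarith
        · exact one_le_two
        · omega
      _ ≤ _ := by
        rw [one_mul, ← pow_add]
        exact mul_le_mul_of_nonneg_right
          (pow_le_pow_right₀ one_le_two (by have : 1 ≤ Z := by omega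
                                            linarith [Nat.zero_le (4 * Z ^ 2)])) hη0
  have hfin : 2 * ((2 : ℝ) ^ (4 * Z ^ 2 + 5 * Z) * eta l m) ≤ eps l m / 2 := by
    have hexp : 4 * Z ^ 2 + 5 * Z + 2 + (l + m + 2) ≤ mexp l m := by
      have hZ2 : 3 ≤ Z := by omega
      have : 3 * Z ≤ Z ^ 2 := by rw [sq]; exact Nat.mul_le_mul_right Z hZ2
      simp only [mexp, ← hZ]
      omega
    obtain ⟨c, hc⟩ := Nat.exists_eq_add_of_le hexp
    have h1 : eta l m = (1 / 2 : ℝ) ^ (4 * Z ^ 2 + 5 * Z) * (1 / 4) * eps l m * (1 / 2) ^ c := by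
      rw [eta, hc, pow_add, pow_add, pow_add, eps]; norm_num
    have h2 : (1 / 2 : ℝ) ^ c ≤ 1 := pow_le_one₀ (by norm_num) (by norm_num)
    have h3 : (2 : ℝ) ^ (4 * Z ^ 2 + 5 * Z) * (1 / 2) ^ (4 * Z ^ 2 + 5 * Z) = 1 := by
      rw [← mul_pow]; norm_num
    rw [h1]
    calc _ = eps l m / 2 * (1 / 2) ^ c *
          ((2 : ℝ) ^ (4 * Z ^ 2 + 5 * Z) * (1 / 2) ^ (4 * Z ^ 2 + 5 * Z)) := by ring
      _ ≤ _ := by rw [h3, mul_one]; exact mul_le_of_le_one_right (by linarith [eps_pos (l := l) (m := m)]) h2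
  rw [gval] at h0 hga
  rw [hzero] at hga
  linarith [eps_pos (l := l) (m := m)]

end Vale.Agent.P256.Lift
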