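import Mathlib

/-!
A normal form for the slices of semidefinite lifts: a traceless space of matrices around the
identity, mapped affinely, which agrees with the lift up to any prescribed margin at finitely
many points.
-/

namespace Vale.Agent.P256.Lift

open Matrix Finset Filter Topology
open scoped MatrixOrder

variable {ι κ : Type*} [Fintype ι] [Fintype κ]

/-- The quadratic form is nonnegative. -/
def Nn (M : Matrix ι ι ℝ) : Prop := ∀ z : ι → ℝ, 0 ≤ z ⬝ᵥ M *ᵥ z

theorem Nn.conj {X : Matrix ι ι ℝ} (h : Nn X) (R : Matrix ι κ ℝ) : Nn (Rᵀ * X * R) := fun z => by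
  rw [← mulVec_mulVec, ← mulVec_mulVec, dotProduct_mulVec z Rᵀ, vecMul_transpose]
  exact h _

theorem psd_of_nn {M : Matrix ι ι ℝ} (hs : Mᵀ = M) (h : Nn M) : M.PosSemidef :=
  PosSemidef.of_dotProduct_mulVec_nonneg
    (by rw [IsHermitian, conjTranspose_eq_transpose_of_trivial, hs]) fun z => by simpa using h z

theorem nn_of_psd {M : Matrix ι ι ℝ} (h : M.PosSemidef) : Nn M := fun z => by
  simpa using h.dotProduct_mulVec_nonneg z

theorem Nn.diag [DecidableEq ι] {M : Matrix ι ι ℝ} (h : Nn M) (a : ι) : 0 ≤ M a a := by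
  simpa using h (Pi.single a 1)

theorem Nn.abs_entry [DecidableEq ι] {M : Matrix ι ι ℝ} (hs : Mᵀ = M) (h : Nn M) (a b : ι) :
    |M a b| ≤ M.trace := by
  have hd := fun c => h.diag c
  have hle : ∀ c, M c c ≤ M.trace := fun c =>
    single_le_sum (f := fun c => M c c) (fun c _ => hd c) (mem_univ c)
  have h1 := h (Pi.single a 1 + Pi.single b 1)
  have h2 := h (Pi.single a 1 - Pi.single b 1)
  have hba : M b a = M a b := congrFun (congrFun hs a) b
  simp [mulVec_add, mulVec_sub, dotProduct_add, dotProduct_sub, add_dotProduct, sub_dotProduct,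
    hba] at h1 h2
  exact abs_le.mpr ⟨by linarith [hle a, hle b], by linarith [hle a, hle b]⟩

theorem nn_perturb [DecidableEq ι] {M D : Matrix ι ι ℝ} (h : Nn M) {τ : ℝ}
    (hD : ∀ a b, |D a b| ≤ τ) : Nn (M + D + ((Fintype.card ι : ℝ) * τ) • 1) := by
  intro z
  rcases isEmpty_or_nonempty ι with hι | ⟨⟨a₀⟩⟩
  · simp [dotProduct]
  have hτ : 0 ≤ τ := (abs_nonneg _).trans (hD a₀ a₀)
  have hquad : |z ⬝ᵥ D *ᵥ z| ≤ τ * (∑ a, |z a|) ^ 2 := by
    rw [sq, Finset.sum_mul_sum, Finset.mul_sum]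
    simp only [dotProduct, mulVec, Finset.mul_sum]
    refine (abs_sum_le_sum_abs _ _).trans (sum_le_sum fun a _ =>
      (abs_sum_le_sum_abs _ _).trans (sum_le_sum fun b _ => ?_))
    rw [abs_mul, abs_mul]
    nlinarith [mul_le_mul_of_nonneg_right (hD a b) (mul_nonneg (abs_nonneg (z a)) (abs_nonneg (z b)))]
  have hcs : (∑ a, |z a|) ^ 2 ≤ Fintype.card ι * ∑ a, z a ^ 2 := by
    simpa using sq_sum_le_card_mul_sum_sq (s := univ) (f := fun a => |z a|)
  have hzz : z ⬝ᵥ z = ∑ a, z a ^ 2 := by simp [dotProduct, sq]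
  simp only [add_mulVec, dotProduct_add, smul_mulVec, one_mulVec, dotProduct_smul, smul_eq_mul, hzz]
  nlinarith [h z, (abs_le.mp hquad).1, mul_le_mul_of_nonneg_left hcs hτ]

theorem isClosed_nn [DecidableEq ι] (ε : ℝ) :
    IsClosed {M : Matrix ι ι ℝ | Nn (M + ε • 1)} := by
  simp only [Nn, Set.ofPred_forall]
  refine isClosed_iInter fun z => isClosed_le continuous_const ?_
  simp only [dotProduct, mulVec]
  fun_prop

variable {N a m : ℕ}

/-- The index type of the normal form. -/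
abbrev Idx (N m : ℕ) := (Fin N ⊕ Unit) ⊕ (Fin m ⊕ Fin m)

/-- The affine matrices cutting out the slice, a trace bound and a box. -/
def full (A0 : Matrix (Fin N) (Fin N) ℝ) (τ c : ℝ) (y : Fin m → ℝ) :
    Matrix (Idx N m) (Idx N m) ℝ :=
  fromBlocks (fromBlocks A0 0 0 (diagonal fun _ => τ - A0.trace)) 0 0
    (diagonal (Sum.elim (fun i => c - y i) fun i => c + y i))

/-- Reads the point off. -/
noncomputable def readPt : Matrix (Idx N m) (Idx N m) ℝ →ₗ[ℝ] (Fin m → ℝ) where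
  toFun M i := (M (Sum.inr (Sum.inr i)) (Sum.inr (Sum.inr i)) -
    M (Sum.inr (Sum.inl i)) (Sum.inr (Sum.inl i))) / 2
  map_add' M M' := by funext i; simp; ring
  map_smul' r M := by funext i; simp; ring

theorem readPt_full (A0 : Matrix (Fin N) (Fin N) ℝ) (τ c : ℝ) (y : Fin m → ℝ) :
    readPt (full A0 τ c y) = y := by
  funext i; simp [readPt, full]

theorem full_transpose {A0 : Matrix (Fin N) (Fin N) ℝ} (hA : A0ᵀ = A0) (τ c : ℝ) (y : Fin m → ℝ) :
    (full A0 τ c y)ᵀ = full A0 τ c y := by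
  simp [full, fromBlocks_transpose, hA]

theorem trace_full (A0 : Matrix (Fin N) (Fin N) ℝ) (τ c : ℝ) (y : Fin m → ℝ) :
    (full A0 τ c y).trace = τ + 2 * m * c := by
  simp [full, Matrix.trace, Fintype.sum_sum_type, sum_add_distrib]
  ring

theorem nn_fromBlocks {P : Matrix ι ι ℝ} {Q : Matrix κ κ ℝ} (hP : Nn P) (hQ : Nn Q) :
    Nn (fromBlocks P 0 0 Q) := fun z => by
  simp only [fromBlocks_mulVec, zero_mulVec, add_zero, zero_add]
  rw [dotProduct, Fintype.sum_sum_type]
  exact add_nonneg (hP _) (hQ _)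

theorem nn_full {A0 : Matrix (Fin N) (Fin N) ℝ} (hA : A0.PosSemidef) {τ c : ℝ}
    (hτ : A0.trace ≤ τ) {y : Fin m → ℝ} (hy : ∀ i, |y i| ≤ c) : Nn (full A0 τ c y) := by
  have hB : (diagonal (Sum.elim (fun i => c - y i) fun i => c + y i)).PosSemidef :=
    posSemidef_diagonal_iff.mpr fun i => i.rec (fun i => by simp; linarith [(abs_le.mp (hy i)).2])
      fun i => by simp; linarith [(abs_le.mp (hy i)).1]
  have hU : (diagonal fun _ : Unit => τ - A0.trace).PosSemidef :=
    posSemidef_diagonal_iff.mpr fun _ => sub_nonneg.mpr hτ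
  exact nn_fromBlocks (nn_fromBlocks (nn_of_psd hA) (nn_of_psd hU)) (nn_of_psd hB)

theorem sub_nn {A0 : Matrix (Fin N) (Fin N) ℝ} {τ c : ℝ} {y : Fin m → ℝ}
    (h : Nn (full A0 τ c y)) : Nn A0 := fun z => by
  have := h (Sum.elim (Sum.elim z 0) 0)
  simpa [full, fromBlocks_mulVec, dotProduct, Fintype.sum_sum_type, mulVec] using this

/-- The normal form: a traceless symmetric space around the identity, mapped affinely. -/
structure Model (ι : Type*) [Fintype ι] [DecidableEq ι] (m : ℕ) where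
  space : Submodule ℝ (Matrix ι ι ℝ)
  centre : Fin m → ℝ
  proj : Matrix ι ι ℝ →ₗ[ℝ] (Fin m → ℝ)

variable {σ : Type*} (A₀ : Matrix (Fin N) (Fin N) ℝ) (A : Fin m → Matrix (Fin N) (Fin N) ℝ)
  (B : Fin a → Matrix (Fin N) (Fin N) ℝ)

/-- The pencil of the lift. -/
def pencil (y : Fin m → ℝ) (u : Fin a → ℝ) : Matrix (Fin N) (Fin N) ℝ :=
  A₀ + ∑ i, y i • A i + ∑ j, u j • B j

theorem full_add (P P' : Matrix (Fin N) (Fin N) ℝ) (τ τ' c c' : ℝ) (y y' : Fin m → ℝ) :
    full (P + P') (τ + τ') (c + c') (y + y') = full P τ c y + full P' τ' c' y' := by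
  simp only [full, fromBlocks_add, add_zero, diagonal_add, trace_add]
  congr 3
  · funext u; ring
  · funext i; rcases i with i | i <;> simp <;> ring

theorem full_smul (r : ℝ) (P : Matrix (Fin N) (Fin N) ℝ) (τ c : ℝ) (y : Fin m → ℝ) :
    full (r • P) (r * τ) (r * c) (r • y) = r • full P τ c y := by
  simp only [full, fromBlocks_smul, smul_zero, ← diagonal_smul, trace_smul, smul_eq_mul]
  congr 3
  · funext u; simp; ring
  · funext i; rcases i with i | i <;> simp <;> ring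

/-- The linear part of the full pencil. -/
def fullLin : ((Fin m → ℝ) × (Fin a → ℝ)) →ₗ[ℝ] Matrix (Idx N m) (Idx N m) ℝ where
  toFun q := full (pencil 0 A B q.1 q.2) 0 0 q.1
  map_add' q r := by
    rw [← full_add, add_zero, Prod.fst_add, Prod.snd_add]
    congr 1
    simp [pencil, add_smul, sum_add_distrib]; abel
  map_smul' r q := by
    rw [RingHom.id_apply, ← full_smul, mul_zero, Prod.smul_fst, Prod.smul_snd]
    congr 1
    simp [pencil, mul_smul, smul_sum]

theorem full_split (τ c : ℝ) (q : (Fin m → ℝ) × (Fin a → ℝ)) :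
    full (pencil A₀ A B q.1 q.2) τ c q.1 = full A₀ τ c 0 + fullLin A B q := by
  show _ = _ + full (pencil 0 A B q.1 q.2) 0 0 q.1
  rw [← full_add, add_zero, add_zero, zero_add]
  congr 1
  simp [pencil, add_assoc]

variable {A₀ A B}

theorem pencil_transpose (hA0 : A₀ᵀ = A₀) (hA : ∀ i, (A i)ᵀ = A i) (hB : ∀ j, (B j)ᵀ = B j)
    (y : Fin m → ℝ) (u : Fin a → ℝ) : (pencil A₀ A B y u)ᵀ = pencil A₀ A B y u := by
  simp [pencil, transpose_sum, hA0, hA, hB]

theorem normal_form (hA0 : A₀ᵀ = A₀) (hA : ∀ i, (A i)ᵀ = A i) (hB : ∀ j, (B j)ᵀ = B j)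
    (pts : σ → Fin m → ℝ) (hpts : ∀ o i, |pts o i| ≤ 1) (In Out : Finset σ) {η : ℝ} (hη : 0 < η)
    (hne : ∃ u, Nn (pencil A₀ A B 0 u)) (hin : ∀ o ∈ In, ∃ u, Nn (pencil A₀ A B (pts o) u))
    (hout : ∀ o ∈ Out, ∀ y u, (∀ i, |y i - pts o i| ≤ η) → ¬ Nn (pencil A₀ A B y u)) :
    ∃ D : Model (Idx N m) m, (∀ W ∈ D.space, Wᵀ = W) ∧ (∀ W ∈ D.space, W.trace = 0) ∧
      (∀ W ∈ D.space, Nn (1 + W) → ∀ i, |D.centre i + D.proj W i| ≤ 3) ∧
      (∀ o ∈ In, ∃ W ∈ D.space, Nn (1 + W) ∧ D.centre + D.proj W = pts o) ∧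
      (∀ o ∈ Out, ∀ W ∈ D.space, Nn (1 + W) →
        ∃ i, η / 2 < |D.centre i + D.proj W i - pts o i|) := by
  classical
  obtain ⟨u₀, hu₀⟩ := hne
  choose! uIn huIn using hin
  set τ : ℝ := |(pencil A₀ A B 0 u₀).trace| + ∑ o ∈ In, |(pencil A₀ A B (pts o) (uIn o)).trace|
    with hτ
  set F : (Fin m → ℝ) → (Fin a → ℝ) → Matrix (Idx N m) (Idx N m) ℝ :=
    fun y u => full (pencil A₀ A B y u) τ 2 y with hF
  set M0 := full A₀ τ 2 (0 : Fin m → ℝ) with hM0
  set W0 := LinearMap.range (fullLin A B) with hW0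
  set E : Set (Matrix (Idx N m) (Idx N m) ℝ) := {M | M - M0 ∈ W0} with hE
  have hFE : ∀ y u, F y u ∈ E := fun y u => ⟨(y, u), by
    simp only [hF, full_split A₀ A B τ 2 (y, u), hM0]; abel⟩
  have hEF : ∀ M ∈ E, ∃ y u, M = F y u := fun M hM => by
    obtain ⟨q, hq⟩ := hM
    refine ⟨q.1, q.2, ?_⟩
    simp only [hF, full_split A₀ A B τ 2 q, hq, hM0]; abel
  have hsymF : ∀ y u, (F y u)ᵀ = F y u := fun y u =>
    full_transpose (pencil_transpose hA0 hA hB y u) _ _ _
  have hclE : IsClosed E :=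
    W0.closed_of_finiteDimensional.preimage (continuous_id.sub continuous_const)
  let Cs : ℝ → Set (Matrix (Idx N m) (Idx N m) ℝ) := fun ε => E ∩ {M | Nn (M + ε • 1)}
  have hcpt : ∀ ε, ε ≤ 1 → 0 ≤ ε → IsCompact (Cs ε) := by
    intro ε hε1 hε0
    set R : ℝ := τ + 2 * m * 2 + Fintype.card (Idx N m) + 1
    refine (isCompact_univ_pi fun _ => isCompact_univ_pi fun _ =>
      isCompact_Icc (a := -R) (b := R)).of_isClosed_subset (hclE.inter (isClosed_nn ε)) ?_
    intro M ⟨hM, hnn⟩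
    obtain ⟨y, u, rfl⟩ := hEF M hM
    refine Set.mem_univ_pi.mpr fun i => Set.mem_univ_pi.mpr fun j => ?_
    have hs : (F y u + ε • 1)ᵀ = F y u + ε • 1 := by simp [hsymF]
    have h1 := hnn.abs_entry hs i j
    have htr : (F y u + ε • (1 : Matrix (Idx N m) (Idx N m) ℝ)).trace =
        τ + 2 * m * 2 + ε * Fintype.card (Idx N m) := by
      simp only [hF, trace_add, trace_full, trace_smul, trace_one, smul_eq_mul]
    have hN : ε * Fintype.card (Idx N m) ≤ Fintype.card (Idx N m) :=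
      mul_le_of_le_one_left (Nat.cast_nonneg _) hε1
    rw [htr, Matrix.add_apply, Matrix.smul_apply, smul_eq_mul] at h1
    have h2 : |ε * (1 : Matrix (Idx N m) (Idx N m) ℝ) i j| ≤ 1 := by
      rw [Matrix.one_apply]; split_ifs <;> simp [abs_of_nonneg hε0, hε1]
    have := abs_le.mp h1; have := abs_le.mp h2
    exact ⟨by simp only [R]; linarith, by simp only [R]; linarith⟩
  have hev : ∀ᶠ k : ℕ in atTop, ∀ o ∈ Out, ∀ M ∈ Cs (1 / (k + 1)),
      ∃ i, η / 2 < |readPt M i - pts o i| := by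
    rw [eventually_all_finset]
    intro o ho
    by_contra hnot
    have hall : ∀ k : ℕ, ∃ M ∈ Cs (1 / (k + 1)), ∀ i, |readPt M i - pts o i| ≤ η / 2 := by
      intro k
      obtain ⟨k', hk', h⟩ := (frequently_atTop.mp (not_eventually.mp hnot)) k
      push Not at h
      obtain ⟨M, ⟨hM, hnn⟩, hi⟩ := h
      refine ⟨M, ⟨hM, fun z => ?_⟩, hi⟩
      have h0 := hnn z
      simp only [add_mulVec, dotProduct_add, smul_mulVec, one_mulVec, dotProduct_smul,
        smul_eq_mul] at h0 ⊢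
      have hle : (1 : ℝ) / (k' + 1) ≤ 1 / (k + 1) :=
        one_div_le_one_div_of_le (by positivity) (by exact_mod_cast Nat.succ_le_succ hk')
      nlinarith [Finset.sum_nonneg (s := univ) fun i _ => mul_self_nonneg (z i),
        mul_le_mul_of_nonneg_right hle (show 0 ≤ z ⬝ᵥ z from
          Finset.sum_nonneg fun i _ => mul_self_nonneg (z i))]
    let Q : ℕ → Set (Matrix (Idx N m) (Idx N m) ℝ) := fun k =>
      Cs (1 / (k + 1)) ∩ {M | ∀ i, |readPt M i - pts o i| ≤ η / 2}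
    have hpc : IsClosed {M : Matrix (Idx N m) (Idx N m) ℝ | ∀ i, |readPt M i - pts o i| ≤ η / 2} := by
      simp only [Set.ofPred_forall]
      refine isClosed_iInter fun i => isClosed_le ?_ continuous_const
      simp only [readPt, LinearMap.coe_mk, AddHom.coe_mk]
      fun_prop
    have hQc : ∀ k, IsClosed (Q k) := fun k => (hclE.inter (isClosed_nn _)).inter hpc
    obtain ⟨M, hM⟩ := IsCompact.nonempty_iInter_of_sequence_nonempty_isCompact_isClosed Q
      (fun k => by
        intro M ⟨⟨hM, hnn⟩, hi⟩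
        refine ⟨⟨hM, fun z => ?_⟩, hi⟩
        have h0 := hnn z
        simp only [add_mulVec, dotProduct_add, smul_mulVec, one_mulVec, dotProduct_smul,
          smul_eq_mul] at h0 ⊢
        have hle : (1 : ℝ) / ((k + 1 : ℕ) + 1) ≤ 1 / (k + 1) :=
          one_div_le_one_div_of_le (by positivity) (by push_cast; linarith)
        nlinarith [mul_le_mul_of_nonneg_right hle (show 0 ≤ z ⬝ᵥ z from
          Finset.sum_nonneg fun i _ => mul_self_nonneg (z i))])
      (fun k => by obtain ⟨M, h1, h2⟩ := hall k; exact ⟨M, h1, h2⟩)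
      ((hcpt _ (by norm_num) (by positivity)).of_isClosed_subset (hQc 0) Set.inter_subset_left) hQc
    have hM' := Set.mem_iInter.mp hM
    obtain ⟨y, u, rfl⟩ := hEF M (hM' 0).1.1
    have hnn : Nn (F y u) := fun z => by
      have hlim : Tendsto (fun k : ℕ => z ⬝ᵥ F y u *ᵥ z + 1 / (k + 1) * (z ⬝ᵥ z)) atTop
          (𝓝 (z ⬝ᵥ F y u *ᵥ z)) := by
        simpa using (tendsto_one_div_add_atTop_nhds_zero_nat.mul_const (z ⬝ᵥ z)).const_add
          (z ⬝ᵥ F y u *ᵥ z)
      refine ge_of_tendsto' hlim fun k => ?_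
      have := (hM' k).1.2 z
      simpa [add_mulVec, smul_mulVec, dotProduct_smul] using this
    refine hout o ho y u (fun i => ?_) (sub_nn hnn)
    have := (hM' 0).2 i
    simp only [hF, readPt_full] at this
    linarith
  obtain ⟨K, hK⟩ := hev.exists
  set ε : ℝ := 1 / (K + 1) with hε
  have hε0 : 0 < ε := by positivity
  have hε1 : ε ≤ 1 := by rw [hε, div_le_one (by positivity)]; simp
  have hwit : ∀ y u, Nn (pencil A₀ A B y u) → (pencil A₀ A B y u).trace ≤ τ →
      (∀ i, |y i| ≤ 2) → F y u ∈ Cs ε ∧ (F y u + ε • 1).PosDef := by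
    intro y u h1 h2 h3
    have hnn := nn_full (psd_of_nn (pencil_transpose hA0 hA hB y u) h1) h2 h3
    have hpd : (F y u + ε • 1).PosDef :=
      PosDef.posSemidef_add (psd_of_nn (hsymF y u) hnn) (PosDef.one.smul hε0)
    exact ⟨⟨hFE y u, nn_of_psd hpd.posSemidef⟩, hpd⟩
  have hw0 := hwit 0 u₀ hu₀ (by
    rw [hτ]
    linarith [le_abs_self (pencil A₀ A B 0 u₀).trace,
      Finset.sum_nonneg fun o (_ : o ∈ In) => abs_nonneg (pencil A₀ A B (pts o) (uIn o)).trace])
    (by simp)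
  obtain ⟨Mx, hMx, hmax⟩ := (hcpt ε hε1 hε0.le).exists_isMaxOn ⟨_, hw0.1⟩
    (f := fun M => (M + ε • 1).det)
    ((continuous_id.add continuous_const).matrix_det).continuousOn
  obtain ⟨yx, ux, rfl⟩ := hEF Mx hMx.1
  have hsQ : (F yx ux + ε • 1)ᵀ = F yx ux + ε • 1 := by simp [hsymF]
  have hdetpos : 0 < (F yx ux + ε • 1).det := hw0.2.det_pos.trans_le (hmax hw0.1)
  obtain ⟨R, hR⟩ := CStarAlgebra.nonneg_iff_eq_star_mul_self.mp (psd_of_nn hsQ hMx.2).nonneg
  rw [Matrix.star_eq_conjTranspose, conjTranspose_eq_transpose_of_trivial] at hR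
  have hdR : R.det ≠ 0 := fun h => by
    simp [hR, h] at hdetpos
  have hu : IsUnit R.det := isUnit_iff_ne_zero.mpr hdR
  let g : Matrix (Idx N m) (Idx N m) ℝ →ₗ[ℝ] Matrix (Idx N m) (Idx N m) ℝ :=
    { toFun := fun W => Rᵀ * W * R
      map_add' := fun W W' => by rw [Matrix.mul_add, Matrix.add_mul]
      map_smul' := fun r W => by simp }
  let gi : Matrix (Idx N m) (Idx N m) ℝ →ₗ[ℝ] Matrix (Idx N m) (Idx N m) ℝ :=
    { toFun := fun W => R⁻¹ᵀ * W * R⁻¹
      map_add' := fun W W' => by rw [Matrix.mul_add, Matrix.add_mul]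
      map_smul' := fun r W => by simp }
  have hRR : R * R⁻¹ = 1 := Matrix.mul_nonsing_inv R hu
  have hRR' : R⁻¹ * R = 1 := Matrix.nonsing_inv_mul R hu
  have hT : R⁻¹ᵀ * Rᵀ = 1 := by rw [← transpose_mul, hRR, transpose_one]
  have hT' : Rᵀ * R⁻¹ᵀ = 1 := by rw [← transpose_mul, hRR', transpose_one]
  have hggi : ∀ W, g (gi W) = W := fun W => by
    show Rᵀ * (R⁻¹ᵀ * W * R⁻¹) * R = W
    simp only [← Matrix.mul_assoc, hT', Matrix.one_mul]
    rw [Matrix.mul_assoc, hRR', Matrix.mul_one]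
  set V := W0.map gi with hV
  have hmem : ∀ W ∈ V, F yx ux + g W ∈ E := by
    rintro _ ⟨W', hW', rfl⟩
    rw [hggi]
    show F yx ux + W' - M0 ∈ W0
    rw [add_sub_right_comm]
    exact W0.add_mem (hFE yx ux) hW'
  have hkey : ∀ W, F yx ux + g W + ε • 1 = Rᵀ * (1 + W) * R := fun W => by
    rw [Matrix.mul_add, Matrix.mul_one, Matrix.add_mul, ← hR]
    show F yx ux + Rᵀ * W * R + ε • 1 = _
    abel
  have hCs : ∀ W ∈ V, Nn (1 + W) → F yx ux + g W ∈ Cs ε := fun W hW hn =>
    ⟨hmem W hW, by show Nn _; rw [hkey]; exact hn.conj R⟩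
  have hsymV : ∀ W ∈ V, Wᵀ = W := by
    rintro _ ⟨W', ⟨q, rfl⟩, rfl⟩
    have : (fullLin A B q)ᵀ = fullLin A B q :=
      full_transpose (pencil_transpose transpose_zero hA hB q.1 q.2) _ _ _
    show (R⁻¹ᵀ * fullLin A B q * R⁻¹)ᵀ = R⁻¹ᵀ * fullLin A B q * R⁻¹
    rw [transpose_mul, transpose_mul, transpose_transpose, this, Matrix.mul_assoc]
  refine ⟨⟨V, readPt (F yx ux), readPt ∘ₗ g⟩, hsymV, ?_, ?_, ?_, ?_⟩
  · intro W hW
    have hmaxt : ∀ᶠ t in 𝓝 (0 : ℝ), (1 + t • W).det ≤ 1 := by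
      obtain ⟨Λ, hΛ⟩ := Finite.exists_le fun q : Idx N m × Idx N m => |W q.1 q.2|
      set k : ℝ := ((Fintype.card (Idx N m) : ℕ) : ℝ) with hk
      set β : ℝ := (k + 1) * (|Λ| + 1) with hβ
      have hk0 : 0 ≤ k := Nat.cast_nonneg _
      have hβ0 : 0 < β := by positivity
      filter_upwards [Ioo_mem_nhds (neg_lt_zero.mpr (inv_pos.mpr hβ0)) (inv_pos.mpr hβ0)] with t ht
      have hts : |t| ≤ β⁻¹ := (abs_lt.mpr ht).le
      set θ := k * (|t| * (|Λ| + 1)) with hθ
      have hθ1 : θ ≤ 1 := by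
        have h1 : |t| * β ≤ 1 := by
          rw [← inv_mul_cancel₀ hβ0.ne']; exact mul_le_mul_of_nonneg_right hts hβ0.le
        rw [hθ]; rw [hβ] at h1
        nlinarith [abs_nonneg t, abs_nonneg Λ]
      have hp := nn_perturb (M := (0 : Matrix (Idx N m) (Idx N m) ℝ)) (fun z => by simp)
        (D := t • W) (τ := |t| * (|Λ| + 1)) fun i j => by
          rw [Matrix.smul_apply, smul_eq_mul, abs_mul]
          exact mul_le_mul_of_nonneg_left
            (((hΛ (i, j)).trans (le_abs_self Λ)).trans (by linarith)) (abs_nonneg t)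
      have hn : Nn (1 + t • W) := fun z => by
        have h0 := hp z
        simp only [zero_add, add_mulVec, dotProduct_add, one_mulVec, smul_mulVec, dotProduct_smul,
          smul_eq_mul, ← hk, ← hθ] at h0 ⊢
        nlinarith [show 0 ≤ z ⬝ᵥ z from Finset.sum_nonneg fun i _ => mul_self_nonneg (z i)]
      have h1 := hmax (hCs (t • W) (V.smul_mem t hW) hn)
      have h1' : (F yx ux + g (t • W) + ε • 1).det ≤ (F yx ux + ε • 1).det := h1
      rw [hkey, hR] at h1'
      simp only [det_mul, det_transpose] at h1'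
      nlinarith [mul_self_pos.mpr hdR]
    have hder : HasDerivAt (fun t : ℝ => (1 + t • W).det) W.trace 0 := by
      rw [show (fun t : ℝ => (1 + t • W).det) = fun t : ℝ => 1 + W.trace * t +
        (det (1 + (Polynomial.X : Polynomial ℝ) • W.map Polynomial.C)).divX.divX.eval t * t ^ 2
        from funext fun t => det_one_add_smul t W]
      have h1 := ((hasDerivAt_id (0 : ℝ)).const_mul W.trace).const_add 1
      have h2 := ((Polynomial.hasDerivAt
        (det (1 + (Polynomial.X : Polynomial ℝ) • W.map Polynomial.C)).divX.divX (0 : ℝ)).mul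
        ((hasDerivAt_id (0 : ℝ)).pow 2))
      exact (h1.add h2).congr_deriv (by simp)
    exact (IsLocalMax.hasDerivAt_eq_zero (by simpa [IsLocalMax, IsMaxFilter] using hmaxt) hder)
  · intro W hW hn i
    obtain ⟨y, u, hyu⟩ := hEF _ (hCs W hW hn).1
    have h := (hCs W hW hn).2
    rw [hyu] at h
    have h1 := h.diag (Sum.inr (Sum.inl i))
    have h2 := h.diag (Sum.inr (Sum.inr i))
    simp [hF, full] at h1 h2
    have : readPt (F yx ux) + readPt (g W) = y := by
      rw [← map_add, hyu]; exact readPt_full _ _ _ _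
    rw [show readPt (F yx ux) i + (readPt ∘ₗ g) W i = y i from congrFun this i]
    exact abs_le.mpr ⟨by linarith, by linarith⟩
  · intro o ho
    have hw := hwit (pts o) (uIn o) (huIn o ho) (by
      rw [hτ]
      linarith [le_abs_self (pencil A₀ A B (pts o) (uIn o)).trace,
        abs_nonneg (pencil A₀ A B 0 u₀).trace,
        Finset.single_le_sum (f := fun o => |(pencil A₀ A B (pts o) (uIn o)).trace|)
          (fun o _ => abs_nonneg _) ho])
      (fun i => (hpts o i).trans one_le_two)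
    refine ⟨gi (F (pts o) (uIn o) - F yx ux), ⟨_, ?_, rfl⟩, ?_, ?_⟩
    · have := W0.sub_mem (hFE (pts o) (uIn o)) (hFE yx ux)
      simpa using this
    · have h := hw.1.2.conj R⁻¹
      have he : 1 + gi (F (pts o) (uIn o) - F yx ux) =
          R⁻¹ᵀ * (F (pts o) (uIn o) + ε • 1) * R⁻¹ := by
        have h1 : R⁻¹ᵀ * (F yx ux + ε • 1) * R⁻¹ = 1 := by
          rw [hR, ← Matrix.mul_assoc, hT, Matrix.one_mul, hRR]
        conv_lhs => rw [← h1]
        show _ + R⁻¹ᵀ * (F (pts o) (uIn o) - F yx ux) * R⁻¹ = _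
        rw [← Matrix.add_mul, ← Matrix.mul_add]
        congr 2; abel
      rw [he]; exact h
    · show readPt (F yx ux) + readPt (g (gi _)) = _
      rw [hggi, map_sub, add_sub_cancel]; exact readPt_full _ _ _ _
  · intro o ho W hW hn
    obtain ⟨i, hi⟩ := hK o ho _ (hCs W hW hn)
    refine ⟨i, ?_⟩
    rwa [map_add, Pi.add_apply] at hi

end Vale.Agent.P256.Lift
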