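import Vale.Agent.P256.Defs

/-!
A family of hyperbolic polynomials whose cones are told apart, with a quantitative margin,
by points indexed by the `2l`-subsets of the coordinates.
-/

namespace Vale.Agent.P256.Lift

open MvPolynomial Finset

variable {m : ℕ}

/-- The `d`-subsets of the coordinates. -/
def sets (m d : ℕ) : Finset (Finset (Fin m)) := (univ : Finset (Fin m)).powersetCard d

theorem card_sets (m d : ℕ) : (sets m d).card = m.choose d := by
  simp [sets, card_powersetCard]

/-- `1` on the sets of `T`, `-1` elsewhere. -/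
def sgn (T : Finset (Finset (Fin m))) (S : Finset (Fin m)) : ℝ := if S ∈ T then 1 else -1

theorem abs_sgn (T : Finset (Finset (Fin m))) (S : Finset (Fin m)) : |sgn T S| = 1 := by
  unfold sgn; split_ifs <;> norm_num

/-- The perturbation `∑ ± ∏_{i ∈ S} x_i`. -/
def pert (l : ℕ) (T : Finset (Finset (Fin m))) (x : Fin m → ℝ) : ℝ :=
  ∑ S ∈ sets m (2 * l), sgn T S * ∏ i ∈ S, x i

/-- The squared Euclidean norm. -/
def rsq (x : Fin m → ℝ) : ℝ := ∑ i, x i ^ 2

/-- The size of the perturbation. -/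
noncomputable def eps (l m : ℕ) : ℝ := (1 / 2) ^ (l + m + 2)

/-- The unperturbed polynomial `∏ (t² - j r)`. -/
def base (l : ℕ) (t r : ℝ) : ℝ := ∏ j ∈ range l, (t ^ 2 - (j + 1 : ℝ) * r)

/-- The values of the hyperbolic polynomial. -/
noncomputable def gval (l : ℕ) (T : Finset (Finset (Fin m))) (t : ℝ) (x : Fin m → ℝ) : ℝ :=
  base l t (rsq x) + eps l m * pert l T x

/-- The hyperbolic polynomial. -/
noncomputable def pol (l : ℕ) (T : Finset (Finset (Fin m))) : MvPolynomial (Fin (m + 1)) ℝ :=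
  ∏ j ∈ range l, (X 0 ^ 2 - C (j + 1 : ℝ) * ∑ i : Fin m, X i.succ ^ 2) +
    C (eps l m) * ∑ S ∈ sets m (2 * l), C (sgn T S) * ∏ i ∈ S, X i.succ

/-- The direction of hyperbolicity. -/
def dirE (m : ℕ) : Fin (m + 1) → ℝ := Pi.single 0 1

variable {l : ℕ} {T : Finset (Finset (Fin m))}

theorem eps_pos : 0 < eps l m := by unfold eps; positivity

theorem rsq_nonneg (x : Fin m → ℝ) : 0 ≤ rsq x := by unfold rsq; positivity

theorem sq_le_rsq (x : Fin m → ℝ) (i : Fin m) : x i ^ 2 ≤ rsq x :=
  single_le_sum (f := fun i => x i ^ 2) (fun j _ => sq_nonneg _) (mem_univ i)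

theorem rsq_neg (x : Fin m → ℝ) : rsq (-x) = rsq x := by simp [rsq]

theorem pert_neg (x : Fin m → ℝ) : pert l T (-x) = pert l T x := by
  refine sum_congr rfl fun S hS => ?_
  have hc : S.card = 2 * l := (mem_powersetCard.mp hS).2
  simp [prod_neg, hc, pow_mul]

theorem gval_neg (t : ℝ) (x : Fin m → ℝ) : gval l T (-t) x = gval l T t x := by
  simp [gval, base]

theorem eval_pol (z : Fin (m + 1) → ℝ) :
    eval z (pol l T) = gval l T (z 0) fun i => z i.succ := by
  simp [pol, gval, base, pert, rsq, map_prod]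

theorem eval_line (y : Fin (m + 1) → ℝ) (t : ℝ) :
    eval (t • dirE m - y) (pol l T) = gval l T (t - y 0) fun i => y i.succ := by
  have h : (fun i : Fin m => (t • dirE m - y) i.succ) = -fun i => y i.succ := by
    funext i; simp [dirE]
  rw [eval_pol, h]
  simp [gval, rsq_neg, pert_neg, dirE]

theorem pol_hom : (pol l T : MvPolynomial (Fin (m + 1)) ℝ).IsHomogeneous (2 * l) := by
  refine IsHomogeneous.add ?_ (IsHomogeneous.C_mul (IsHomogeneous.sum _ _ _ fun S hS => ?_) _)
  · have h2 : ∀ j : Fin (m + 1), ((X j : MvPolynomial (Fin (m + 1)) ℝ) ^ 2).IsHomogeneous 2 :=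
      fun j => by simpa using (isHomogeneous_X ℝ j).pow 2
    have := IsHomogeneous.prod (range l)
      (fun j => (X 0 : MvPolynomial (Fin (m + 1)) ℝ) ^ 2 - C (j + 1 : ℝ) *
        ∑ i : Fin m, X i.succ ^ 2) (fun _ => 2) fun j _ =>
      (h2 0).sub ((IsHomogeneous.sum _ _ _ fun i _ => h2 i.succ).C_mul _)
    simpa [mul_comm] using this
  · have hc : S.card = 2 * l := (mem_powersetCard.mp hS).2
    have := IsHomogeneous.prod S (fun i => (X i.succ : MvPolynomial (Fin (m + 1)) ℝ)) (fun _ => 1)
      fun i _ => isHomogeneous_X ℝ _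
    simpa [hc] using this.C_mul (sgn T S)

theorem card_le (m d : ℕ) : ((sets m d).card : ℝ) ≤ 2 ^ m := by
  rw [card_sets]; exact_mod_cast Nat.choose_le_two_pow m d

theorem abs_monom_le {x : Fin m → ℝ} {S : Finset (Fin m)} (hS : S ∈ sets m (2 * l)) :
    |∏ i ∈ S, x i| ≤ rsq x ^ l := by
  have hc : S.card = 2 * l := (mem_powersetCard.mp hS).2
  refine abs_le_of_sq_le_sq ?_ (pow_nonneg (rsq_nonneg x) l)
  rw [← prod_pow, ← pow_mul, mul_comm l 2, ← hc]
  calc ∏ i ∈ S, x i ^ 2 ≤ ∏ _i ∈ S, rsq x :=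
        prod_le_prod (fun i _ => sq_nonneg _) fun i _ => sq_le_rsq x i
    _ = rsq x ^ S.card := by rw [prod_const]

theorem abs_pert_le (x : Fin m → ℝ) : |pert l T x| ≤ (sets m (2 * l)).card * rsq x ^ l := by
  refine (abs_sum_le_sum_abs _ _).trans ((sum_le_sum fun S hS => ?_).trans_eq
    (by rw [sum_const, nsmul_eq_mul]))
  rw [abs_mul, abs_sgn, one_mul]
  exact abs_monom_le hS

theorem small_pert (x : Fin m → ℝ) :
    |eps l m * pert l T x| ≤ (1 / 2 : ℝ) ^ l * rsq x ^ l / 4 := by
  rw [abs_mul, abs_of_pos eps_pos]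
  have h1 := abs_pert_le (T := T) (l := l) x
  have h2 := card_le m (2 * l)
  have h3 : 0 ≤ rsq x ^ l := pow_nonneg (rsq_nonneg x) l
  have h4 : eps l m * (2 : ℝ) ^ m = (1 / 2) ^ l / 4 := by
    unfold eps
    rw [pow_add, pow_add, mul_assoc, mul_assoc, mul_comm _ ((2 : ℝ) ^ m), ← mul_assoc _ ((2 : ℝ) ^ m),
      ← mul_pow]
    norm_num; ring
  calc eps l m * |pert l T x| ≤ eps l m * ((2 : ℝ) ^ m * rsq x ^ l) :=
        mul_le_mul_of_nonneg_left (h1.trans (mul_le_mul_of_nonneg_right h2 h3)) eps_pos.le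
    _ = _ := by rw [← mul_assoc, h4]; ring

/-- The nodes between the roots. -/
noncomputable def node (l j : ℕ) : ℝ :=
  if j = 0 then 0 else if j = l then (l : ℝ) + 1 else (j : ℝ) + 1 / 2

theorem node_nonneg (l j : ℕ) : 0 ≤ node l j := by
  unfold node; split_ifs <;> positivity

theorem node_lt {j : ℕ} (hj : j < l) : node l j < node l (j + 1) := by
  have h : (j : ℝ) + 1 ≤ l := by exact_mod_cast hj
  unfold node
  split_ifs <;> simp_all <;> linarith

theorem node_gap {j : ℕ} (_hj : j ≤ l) (i : ℕ) (hi : i < l) :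
    (1 / 2 : ℝ) ≤ if i < j then node l j - ((i : ℝ) + 1) else ((i : ℝ) + 1) - node l j := by
  have hil : (i : ℝ) + 1 ≤ l := by exact_mod_cast hi
  unfold node
  split_ifs with hij h0 hl h0 hl
  · omega
  · linarith
  · have : (i : ℝ) + 1 ≤ j := by exact_mod_cast hij
    linarith
  · have : (0 : ℝ) ≤ i := Nat.cast_nonneg i
    linarith
  · omega
  · have : (j : ℝ) ≤ i := by exact_mod_cast Nat.le_of_not_lt hij
    linarith

theorem node_sign {j : ℕ} (hj : j ≤ l) :
    (1 / 2 : ℝ) ^ l ≤ (-1 : ℝ) ^ (l - j) * ∏ i ∈ range l, (node l j - ((i : ℝ) + 1)) := by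
  have hsign : (-1 : ℝ) ^ (l - j) = ∏ i ∈ range l, if i < j then 1 else -1 := by
    rw [prod_ite, prod_const_one, one_mul, prod_const]
    congr 1
    have : (range l).filter (fun i => ¬ i < j) = Ico j l := by
      ext i; simp [and_comm]
    rw [this, Nat.card_Ico]
  rw [hsign, ← prod_mul_distrib]
  calc (1 / 2 : ℝ) ^ l = ∏ _i ∈ range l, (1 / 2 : ℝ) := by rw [prod_const, card_range]
    _ ≤ _ := prod_le_prod (fun i _ => by norm_num) fun i hi => by
      refine (node_gap hj i (mem_range.mp hi)).trans_eq ?_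
      split_ifs <;> ring

theorem pow_card_mul_prod_aux (c : ℝ) (f : ℕ → ℝ) :
    ∏ i ∈ range l, (f i * c) = (∏ i ∈ range l, f i) * c ^ l := by
  rw [prod_mul_distrib, prod_const, card_range]

theorem gval_node {j : ℕ} (hj : j ≤ l) {x : Fin m → ℝ} (hx : 0 < rsq x) :
    0 < (-1 : ℝ) ^ (l - j) * gval l T (Real.sqrt (node l j * rsq x)) x := by
  have hsq : Real.sqrt (node l j * rsq x) ^ 2 = node l j * rsq x :=
    Real.sq_sqrt (mul_nonneg (node_nonneg l j) hx.le)
  have hbase : base l (Real.sqrt (node l j * rsq x)) (rsq x) =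
      (∏ i ∈ range l, (node l j - ((i : ℝ) + 1))) * rsq x ^ l := by
    unfold base
    rw [hsq, ← pow_card_mul_prod_aux]
    exact prod_congr rfl fun i _ => by ring
  have h1 := mul_le_mul_of_nonneg_right (node_sign hj) (pow_nonneg hx.le l)
  have h2 := small_pert (l := l) (T := T) x
  have h3 : 0 < (1 / 2 : ℝ) ^ l * rsq x ^ l := by positivity
  have h4 : |(-1 : ℝ) ^ (l - j) * (eps l m * pert l T x)| ≤ (1 / 2 : ℝ) ^ l * rsq x ^ l / 4 := by
    simpa [abs_mul, abs_pow] using h2
  unfold gval
  rw [mul_add, hbase, ← mul_assoc]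
  linarith [(abs_le.mp h4).1]

theorem exists_roots {x : Fin m → ℝ} (hx : 0 < rsq x) :
    ∃ R : Finset ℝ, R.card = 2 * l ∧ ∀ z ∈ R, gval l T z x = 0 := by
  classical
  set τ : ℕ → ℝ := fun j => Real.sqrt (node l j * rsq x) with hτ
  have hcont : Continuous fun z => gval l T z x := by unfold gval base; fun_prop
  have hτlt : ∀ j < l, τ j < τ (j + 1) := fun j hj =>
    Real.sqrt_lt_sqrt (mul_nonneg (node_nonneg l j) hx.le) (mul_lt_mul_of_pos_right (node_lt hj) hx)
  have hex : ∀ j < l, ∃ z ∈ Set.Ioo (τ j) (τ (j + 1)), gval l T z x = 0 := by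
    intro j hj
    have a := gval_node (T := T) hj.le hx
    have b := gval_node (T := T) (Nat.succ_le_of_lt hj) hx
    rw [show l - j = l - (j + 1) + 1 by omega, pow_succ, mul_assoc] at a
    rcases neg_one_pow_eq_or ℝ (l - (j + 1)) with h | h <;>
      simp only [Nat.succ_eq_add_one, h] at a b
    · exact intermediate_value_Ioo (hτlt j hj).le hcont.continuousOn
        ⟨by simp only [hτ]; linarith, by simp only [hτ]; linarith⟩
    · exact intermediate_value_Ioo' (hτlt j hj).le hcont.continuousOn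
        ⟨by simp only [hτ]; linarith, by simp only [hτ]; linarith⟩
  choose! z hz hz0 using hex
  have hmono : ∀ i j, i ≤ j → j ≤ l → τ i ≤ τ j := by
    intro i j hij
    induction j, hij using Nat.le_induction with
    | base => exact fun _ => le_rfl
    | succ j _ ih => exact fun hj => (ih (by omega)).trans (hτlt j (by omega)).le
  have hzlt : ∀ i j, i < j → j < l → z i < z j := fun i j hij hj =>
    ((hz i (by omega)).2.trans_le (hmono (i + 1) j hij hj.le)).trans (hz j hj).1
  have hzpos : ∀ j < l, 0 < z j := fun j hj =>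
    lt_of_le_of_lt (Real.sqrt_nonneg _) (hz j hj).1
  have hinj : Set.InjOn z (range l : Set ℕ) := by
    intro i hi j hj h
    rcases lt_trichotomy i j with h' | h' | h'
    · exact absurd h (hzlt i j h' (mem_range.mp hj)).ne
    · exact h'
    · exact absurd h.symm (hzlt j i h' (mem_range.mp hi)).ne
  refine ⟨(range l).image z ∪ (range l).image (fun j => -z j), ?_, ?_⟩
  · rw [card_union_of_disjoint, card_image_of_injOn hinj,
      card_image_of_injOn (fun i hi j hj h => hinj hi hj (neg_inj.mp h)), card_range]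
    · omega
    · rw [disjoint_left]
      intro w hw hw'
      obtain ⟨i, hi, rfl⟩ := mem_image.mp hw
      obtain ⟨j, hj, h⟩ := mem_image.mp hw'
      linarith [hzpos i (mem_range.mp hi), hzpos j (mem_range.mp hj)]
  · intro w hw
    rcases mem_union.mp hw with h | h <;> obtain ⟨i, hi, rfl⟩ := mem_image.mp h
    · exact hz0 i (mem_range.mp hi)
    · rw [gval_neg]; exact hz0 i (mem_range.mp hi)

theorem rsq_zero {x : Fin m → ℝ} (hx : rsq x = 0) : x = 0 := by
  funext i
  have := sq_le_rsq x i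
  rw [hx] at this
  exact pow_eq_zero_iff two_ne_zero |>.mp (le_antisymm this (sq_nonneg _))

theorem pert_zero (hl : 1 ≤ l) : pert l T (0 : Fin m → ℝ) = 0 := by
  refine sum_eq_zero fun S hS => ?_
  have hc : S.card = 2 * l := (mem_powersetCard.mp hS).2
  obtain ⟨i, hi⟩ : S.Nonempty := card_pos.mp (by omega)
  rw [prod_eq_zero hi (by simp), mul_zero]

theorem hyperbolic (hl : 1 ≤ l) : Hyperbolic (pol l T) (dirE m) := by
  refine ⟨?_, fun y t ht => ?_⟩
  · rw [eval_pol]
    have h0 : (fun i : Fin m => dirE m i.succ) = 0 := by funext i; simp [dirE]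
    rw [h0]
    simp [gval, base, pert_zero hl, rsq, dirE]
  set x : Fin m → ℝ := fun i => y i.succ with hx
  let G : Polynomial ℝ := ∏ j ∈ range l, (Polynomial.X ^ 2 - Polynomial.C ((j + 1 : ℝ) * rsq x)) +
    Polynomial.C (eps l m * pert l T x)
  have haev : Polynomial.aeval (t - (y 0 : ℂ)) G = 0 := by
    rw [← ht]
    have hq : ((pert l T x : ℝ) : ℂ) = ∑ S ∈ sets m (2 * l),
        (sgn T S : ℂ) * ∏ i ∈ S, (-(x i : ℂ)) := by
      rw [← pert_neg, pert]; push_cast; simp
    simp only [hx] at hq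
    simp [G, pol, map_prod, dirE, hx, rsq, Complex.coe_algebraMap, hq]
  rcases (rsq_nonneg x).eq_or_lt with h0 | h0
  · have hx0 := rsq_zero h0.symm
    simp [G, hx0, pert_zero hl, rsq] at haev
    rw [sub_eq_zero.mp haev.1]; simp
  have hmon : (∏ j ∈ range l, (Polynomial.X ^ 2 - Polynomial.C ((j + 1 : ℝ) * rsq x))).Monic :=
    Polynomial.monic_prod_of_monic _ _ fun j _ => Polynomial.monic_X_pow_sub_C _ two_ne_zero
  have hdeg : (∏ j ∈ range l, (Polynomial.X ^ 2 - Polynomial.C ((j + 1 : ℝ) * rsq x))).natDegree =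
      2 * l := by
    rw [Polynomial.natDegree_prod_of_monic _ _ fun j _ => Polynomial.monic_X_pow_sub_C _ two_ne_zero]
    simp only [Polynomial.natDegree_X_pow_sub_C, sum_const, card_range, smul_eq_mul, mul_comm]
  have hG : G.natDegree = 2 * l := by rw [Polynomial.natDegree_add_C, hdeg]
  have hG0 : G ≠ 0 := fun h => by simp [h] at hG; omega
  obtain ⟨R, hR, hroot⟩ := exists_roots (l := l) (T := T) h0
  have hsub : R.val ≤ G.roots := (Multiset.le_iff_subset R.nodup).mpr fun z hz => by
    rw [Polynomial.mem_roots hG0, Polynomial.IsRoot]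
    have := hroot z hz
    simpa [G, gval, base, Polynomial.eval_prod] using this
  have hcard : G.roots.card = G.natDegree :=
    le_antisymm (Polynomial.card_roots' G) (by
      rw [hG, ← hR]; exact Multiset.card_le_card hsub)
  have hfac := Polynomial.C_leadingCoeff_mul_prod_multiset_X_sub_C hcard
  rw [← hfac] at haev
  simp only [map_mul, Polynomial.aeval_C, map_multiset_prod, Multiset.map_map, mul_eq_zero,
    Multiset.prod_eq_zero_iff, Multiset.mem_map, map_eq_zero,
    Polynomial.leadingCoeff_eq_zero] at haev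
  obtain ⟨w, -, hw⟩ := haev.resolve_left hG0
  simp [sub_eq_zero, Complex.ext_iff] at hw
  exact hw.2

/-- Substitutes a variable for the first coordinate. -/
noncomputable def axis (x : Fin m → ℝ) : MvPolynomial (Fin (m + 1)) ℝ →ₐ[ℝ] Polynomial ℝ :=
  MvPolynomial.aeval (Fin.cons Polynomial.X fun i => Polynomial.C (x i))

theorem axis_deriv (x : Fin m → ℝ) (P : MvPolynomial (Fin (m + 1)) ℝ) :
    (axis x P).derivative = axis x (pderiv 0 P) := by
  induction P using MvPolynomial.induction_on with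
  | C a => simp [axis]
  | add P Q hP hQ => simp [hP, hQ]
  | mul_X P i hP =>
    simp only [map_mul, Polynomial.derivative_mul, hP, pderiv_mul, map_add]
    refine Fin.cases ?_ (fun j => ?_) i
    · simp [axis]
    · simp [axis]

theorem axis_eval (x : Fin m → ℝ) (P : MvPolynomial (Fin (m + 1)) ℝ) (s : ℝ) :
    (axis x P).eval s = eval (Fin.cons s x) P := by
  induction P using MvPolynomial.induction_on with
  | C a => simp [axis]
  | add P Q hP hQ => simp [hP, hQ]
  | mul_X P i hP =>
    simp only [map_mul, Polynomial.eval_mul, hP, eval_X]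
    refine Fin.cases ?_ (fun j => ?_) i <;> simp [axis]

theorem smooth (hl : 1 ≤ l) (y : Fin (m + 1) → ℝ) (hy : y ≠ 0) (h0 : eval y (pol l T) = 0) :
    ∃ i, eval y (pderiv i (pol l T)) ≠ 0 := by
  set x : Fin m → ℝ := fun i => y i.succ with hx
  have hcons : Fin.cons (y 0) x = y := Fin.cons_self_tail y
  rcases (rsq_nonneg x).eq_or_lt with h | h
  · have hx0 := rsq_zero h.symm
    rw [eval_pol, show (fun i : Fin m => y i.succ) = 0 from hx0] at h0
    simp [gval, base, pert_zero hl, rsq] at h0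
    exact absurd (_root_.funext fun i => Fin.cases h0.1 (fun j => congrFun hx0 j) i) hy
  refine ⟨0, fun hd => ?_⟩
  let G : Polynomial ℝ := ∏ j ∈ range l, (Polynomial.X ^ 2 - Polynomial.C ((j + 1 : ℝ) * rsq x)) +
    Polynomial.C (eps l m * pert l T x)
  have hG : axis x (pol l T) = G := by
    simp [axis, G, pol, rsq, pert, map_prod]
  have hdeg : G.natDegree = 2 * l := by
    rw [Polynomial.natDegree_add_C,
      Polynomial.natDegree_prod_of_monic _ _ fun j _ => Polynomial.monic_X_pow_sub_C _ two_ne_zero]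
    simp only [Polynomial.natDegree_X_pow_sub_C, sum_const, card_range, smul_eq_mul, mul_comm]
  have hG0 : G ≠ 0 := fun h => by simp [h] at hdeg; omega
  obtain ⟨R, hR, hroot⟩ := exists_roots (l := l) (T := T) h
  have hsub : R.val ≤ G.roots := (Multiset.le_iff_subset R.nodup).mpr fun z hz => by
    rw [Polynomial.mem_roots hG0, Polynomial.IsRoot]
    have := hroot z hz
    simpa [G, gval, base, Polynomial.eval_prod] using this
  have heq : R.val = G.roots := Multiset.eq_of_le_of_card_le hsub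
    ((Polynomial.card_roots' G).trans (by rw [hdeg, ← hR]; rfl))
  have hroot0 : G.IsRoot (y 0) := by rw [← hG, Polynomial.IsRoot, axis_eval, hcons, h0]
  have hdroot : G.derivative.IsRoot (y 0) := by
    rw [← hG, Polynomial.IsRoot, axis_deriv, axis_eval, hcons, hd]
  have h2 : 1 < G.rootMultiplicity (y 0) :=
    (Polynomial.one_lt_rootMultiplicity_iff_isRoot hG0).mpr ⟨hroot0, hdroot⟩
  rw [← Polynomial.count_roots, ← heq] at h2
  exact absurd (Multiset.nodup_iff_count_le_one.mp R.nodup (y 0)) (not_le.mpr h2)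

end Vale.Agent.P256.Lift
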